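import Vale.Agent.P340.Judg

namespace Vale.Agent.P340
open Tm

variable {S : Type} {P : Spec S}

theorem toTm_ren (M : Term S) : ∀ f, toTm (M.rename f) = (toTm M).ren f := by
  induction M <;> intros <;> simp [toTm, Term.rename, ren, *]

theorem toTm_up (σ : ℕ → Term S) :
    (fun n => toTm (Term.liftSub σ n)) = up fun n => toTm (σ n) := by
  funext n; cases n with
  | zero => rfl
  | succ n => simp [Term.liftSub, up, Term.shift, toTm_ren]

theorem toTm_sub (M : Term S) : ∀ σ, toTm (M.subst σ) = (toTm M).sub fun n => toTm (σ n) := by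
  induction M <;> intros <;> simp [toTm, Term.subst, sub, toTm_up, *]

theorem toTm_inst (M N : Term S) : toTm (M.inst N) = (toTm M).inst (toTm N) := by
  rw [Term.inst, toTm_sub, Tm.inst]; congr 1; funext n; cases n <;> rfl

theorem toTm_step {M N : Term S} (h : Term.Beta M N) : Step (toTm M) (toTm N) := by
  induction h with
  | redex A M N => rw [toTm_inst]; exact .redex _ _ _
  | appL N _ ih => exact .appL _ ih
  | appR M _ ih => exact .appR _ ih
  | lamA M _ ih => exact .lamA _ ih
  | lamM A _ ih => exact .lamM _ ih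
  | piA B _ ih => exact .piA _ ih
  | piB A _ ih => exact .piB _ ih

theorem toTm_eqv {M N : Term S} (h : Term.BetaEq M N) : Eqv (toTm M) (toTm N) := by
  induction h with
  | rel _ _ h => exact Eqv.step (toTm_step h)
  | refl _ => exact Eqv.refl _
  | symm _ _ _ ih => exact ih.symm
  | trans _ _ _ _ _ ih1 ih2 => exact ih1.trans ih2

theorem J_of_typing {C : Prop} {Γ : List (Term S)} {M A : Term S} (h : Typing P Γ M A) :
    J P C (Γ.map toTm) (toTm M) (toTm A) := by
  induction h with
  | ax' h => exact .ax h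
  | variable' _ ih => rw [Term.shift, toTm_ren]; exact .vr ih
  | weakening _ _ ih1 ih2 =>
    rw [Term.shift, Term.shift, toTm_ren, toTm_ren]; exact .wk ih1 ih2
  | product _ _ hr ih1 ih2 => exact .prod ih1 ih2 hr
  | abstraction _ _ ih1 ih2 =>
    obtain ⟨a, b, c, hr, hA, hB⟩ := ih2.pi_inv _ _ rfl
    exact .abs hA hB hr ih1
  | application _ _ ih1 ih2 => rw [toTm_inst]; exact ih1.app' ih2
  | conversion _ _ he ih1 ih2 => exact .conv ih1 ih2 (toTm_eqv he)

/-- No constant occurs. -/
def Pureterm (M : Tm S) : Prop := toTm (toTerm M) = M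

theorem toTerm_toTm (M : Term S) : toTerm (toTm M) = M := by
  induction M <;> simp [toTm, toTerm, *]

theorem toTerm_ren {M : Tm S} (h : Pureterm M) (f : ℕ → ℕ) :
    toTerm (M.ren f) = (toTerm M).rename f := by
  conv_lhs => rw [← h, ← toTm_ren, toTerm_toTm]

theorem toTerm_inst {M N : Tm S} (hM : Pureterm M) (hN : Pureterm N) :
    toTerm (M.inst N) = (toTerm M).inst (toTerm N) := by
  conv_lhs => rw [← hM, ← hN, ← toTm_inst, toTerm_toTm]

theorem Pureterm.ren {M : Tm S} (h : Pureterm M) (f : ℕ → ℕ) : Pureterm (M.ren f) := by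
  unfold Pureterm; rw [toTerm_ren h, toTm_ren, h]

theorem Pureterm.inst {M N : Tm S} (hM : Pureterm M) (hN : Pureterm N) :
    Pureterm (M.inst N) := by
  unfold Pureterm; rw [toTerm_inst hM hN, toTm_inst, hM, hN]

theorem Pureterm.sub : ∀ {M : Tm S} {σ : ℕ → Tm S}, Pureterm M → (∀ n, Pureterm (σ n)) →
    Pureterm (M.sub σ) := by
  intro M σ hM hσ
  have e : M.sub σ = toTm ((toTerm M).subst fun n => toTerm (σ n)) := by
    rw [toTm_sub, hM]; congr 1; funext n; exact (hσ n).symm
  unfold Pureterm; rw [e, toTerm_toTm]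

theorem step_pureterm {M N : Tm S} (h : Step M N) : Pureterm M →
    Term.Beta (toTerm M) (toTerm N) ∧ Pureterm N := by
  induction h with
  | redex A M N =>
    intro hp
    simp only [Pureterm, toTerm, toTm, Tm.app.injEq, Tm.lam.injEq] at hp
    rw [toTerm_inst hp.1.2 hp.2]
    exact ⟨.redex _ _ _, Pureterm.inst hp.1.2 hp.2⟩
  | appL N _ ih =>
    intro hp; simp only [Pureterm, toTerm, toTm, Tm.app.injEq] at hp ⊢
    exact ⟨.appL _ (ih hp.1).1, (ih hp.1).2, hp.2⟩
  | appR M _ ih =>
    intro hp; simp only [Pureterm, toTerm, toTm, Tm.app.injEq] at hp ⊢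
    exact ⟨.appR _ (ih hp.2).1, hp.1, (ih hp.2).2⟩
  | lamA M _ ih =>
    intro hp; simp only [Pureterm, toTerm, toTm, Tm.lam.injEq] at hp ⊢
    exact ⟨.lamA _ (ih hp.1).1, (ih hp.1).2, hp.2⟩
  | lamM A _ ih =>
    intro hp; simp only [Pureterm, toTerm, toTm, Tm.lam.injEq] at hp ⊢
    exact ⟨.lamM _ (ih hp.2).1, hp.1, (ih hp.2).2⟩
  | piA B _ ih =>
    intro hp; simp only [Pureterm, toTerm, toTm, Tm.pi.injEq] at hp ⊢
    exact ⟨.piA _ (ih hp.1).1, (ih hp.1).2, hp.2⟩
  | piB A _ ih =>
    intro hp; simp only [Pureterm, toTerm, toTm, Tm.pi.injEq] at hp ⊢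
    exact ⟨.piB _ (ih hp.2).1, hp.1, (ih hp.2).2⟩

/-- Constant-erasing map (constants become a sort). -/
def clean (d : S) : Tm S → Term S
  | .var n => .var n
  | .con _ => .sort d
  | .sort s => .sort s
  | .app M N => .app (clean d M) (clean d N)
  | .lam A M => .lam (clean d A) (clean d M)
  | .pi A M => .pi (clean d A) (clean d M)

theorem clean_ren (d : S) (M : Tm S) : ∀ f, clean d (M.ren f) = (clean d M).rename f := by
  induction M <;> intros <;> simp [clean, Term.rename, Tm.ren, *]

theorem clean_up (d : S) (σ : ℕ → Tm S) :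
    (fun n => clean d (up σ n)) = Term.liftSub fun n => clean d (σ n) := by
  funext n; cases n with
  | zero => rfl
  | succ n => simp [Term.liftSub, up, Term.shift, clean_ren]

theorem clean_sub (d : S) (M : Tm S) :
    ∀ σ, clean d (M.sub σ) = (clean d M).subst fun n => clean d (σ n) := by
  induction M <;> intros <;> simp [clean, Term.subst, Tm.sub, clean_up, *]

theorem clean_inst (d : S) (M N : Tm S) : clean d (M.inst N) = (clean d M).inst (clean d N) := by
  rw [Tm.inst, clean_sub, Term.inst]; congr 1; funext n; cases n <;> rfl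

theorem clean_toTm (d : S) (M : Term S) : clean d (toTm M) = M := by
  induction M <;> simp [toTm, clean, *]

theorem clean_step (d : S) {M N : Tm S} (h : Step M N) :
    Term.Beta (clean d M) (clean d N) := by
  induction h with
  | redex A M N => rw [clean_inst]; exact .redex _ _ _
  | appL N _ ih => exact .appL _ ih
  | appR M _ ih => exact .appR _ ih
  | lamA M _ ih => exact .lamA _ ih
  | lamM A _ ih => exact .lamM _ ih
  | piA B _ ih => exact .piA _ ih
  | piB A _ ih => exact .piB _ ih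

theorem J.pureterm {Γ : List (Tm S)} {M A : Tm S} (h : J P False Γ M A) :
    Pureterm M ∧ Pureterm A := by
  induction h with
  | ax _ => exact ⟨rfl, rfl⟩
  | const hC => exact hC.elim
  | vr _ ih => exact ⟨rfl, ih.1.ren _⟩
  | wk _ _ ih1 _ => exact ⟨ih1.1.ren _, ih1.2.ren _⟩
  | prod _ _ _ ih1 ih2 =>
    refine ⟨?_, rfl⟩
    simp only [Pureterm, toTerm, toTm, Tm.pi.injEq]; exact ⟨ih1.1, ih2.1⟩
  | abs _ _ _ _ ih1 ih2 ih3 =>
    constructor <;> simp only [Pureterm, toTerm, toTm, Tm.lam.injEq, Tm.pi.injEq]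
    · exact ⟨ih1.1, ih3.1⟩
    · exact ⟨ih1.1, ih2.1⟩
  | apply _ _ _ _ _ _ _ _ ih3 ih4 ih5 =>
    refine ⟨?_, ih5.1⟩
    simp only [Pureterm, toTerm, toTm, Tm.app.injEq]; exact ⟨ih3.1, ih4.1⟩
  | conv _ _ _ ih1 ih2 => exact ⟨ih1.1, ih2.1⟩

theorem typing_of_J {Γ : List (Tm S)} {M A : Tm S} (h : J P False Γ M A) :
    Typing P (Γ.map toTerm) (toTerm M) (toTerm A) := by
  induction h with
  | ax h => exact .ax' h
  | const hC => exact hC.elim
  | vr h ih => rw [Tm.shift, toTerm_ren h.pureterm.1]; exact .variable' ih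
  | wk h _ ih1 ih2 =>
    rw [Tm.shift, Tm.shift, toTerm_ren h.pureterm.1, toTerm_ren h.pureterm.2]
    exact .weakening ih1 ih2
  | prod _ _ hr ih1 ih2 => exact .product ih1 ih2 hr
  | abs _ _ hr _ ih1 ih2 ih3 => exact .abstraction ih3 (.product ih1 ih2 hr)
  | apply _ hB _ _ hN _ _ _ ih3 ih4 _ =>
    rw [toTerm_inst hB.pureterm.1 hN.pureterm.1]; exact .application ih3 ih4
  | @conv Γ M A B s h hB he ih1 ih2 =>
    refine .conversion ih1 ih2 ?_
    have key : ∀ {X Y : Tm S}, Eqv X Y → Term.BetaEq (clean s X) (clean s Y) := by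
      intro X Y hXY
      induction hXY with
      | rel _ _ h => exact .rel _ _ (clean_step s h)
      | refl _ => exact .refl _
      | symm _ _ _ i => exact .symm _ _ i
      | trans _ _ _ _ _ i1 i2 => exact .trans _ _ _ i1 i2
    have e : ∀ {X : Tm S}, Pureterm X → clean s X = toTerm X := by
      intro X hX
      conv_lhs => rw [← hX, clean_toTm]
    rw [← e h.pureterm.2, ← e hB.pureterm.1]
    exact key he

end Vale.Agent.P340
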