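import Vale.Agent.P340.Trans

namespace Vale.Agent.P340
open Tm

variable {S : Type} {P : Spec S}

/-- Judgments without constants. -/
abbrev D (P : Spec S) (Δ : List (Tm S)) (M A : Tm S) : Prop := J P False Δ M A

/-- Judgments with constants. -/
abbrev T (P : Spec S) (Δ : List (Tm S)) (M A : Tm S) : Prop := J P True Δ M A

theorem D.up {Δ : List (Tm S)} {M A : Tm S} (h : D P Δ M A) : T P Δ M A := h.mono False.elim

theorem WF.up {Δ : List (Tm S)} (h : WF P False Δ) : WF P True Δ := by
  induction h with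
  | nil => exact .nil
  | cons _ hA ih => exact .cons ih (D.up hA)

theorem blk_wf {C : Prop} {Δ : List (Tm S)} {I : Tm S} {a : S} (h : J P C Δ I (sort a)) :
    WF P C (blkC I Δ) := .cons (.cons h.wf h) (J.wk h h)

theorem blk_lift {Γ Δ : List (Tm S)} {f : ℕ → ℕ} (h : TRen Γ Δ f) (I : Tm S) :
    TRen (blkC I Γ) (blkC (I.ren f) Δ) (lr2 f) := by
  have := (h.lift I).lift I.shift
  simp only [blkC, Tm.shift, ren_ren] at this ⊢
  exact this

theorem trC_weak {Γ : List (Tm S)} (A : Tm S) : TRen (trC Γ) (trC (A :: Γ)) (· + 2) := by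
  intro n B h
  have := Look.there (tr 1 A).shift (Look.there (tr 1 A) h)
  simp only [Tm.shift, ren_ren] at this
  exact this

theorem cmp_typed (H : Cond P) {C : Prop} {Δ : List (Tm S)} {V R : Tm S} {s : S}
    (hV : J P C Δ V (sort s)) (hR : J P C Δ R (sort s)) : J P C Δ (cmp V R) (sort s) :=
  have h : J P C Δ (pi V R.shift) (sort s) := .prod hV (.wk hR hV) (H.refl s)
  .prod h (.wk hR h) (H.refl s)

/-- The pure translation preserves typing. -/
def Pure (P : Spec S) (Γ : List (Tm S)) (M A : Tm S) : Prop :=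
  WF P False (trC Γ) ∧ ∀ k, k < 2 → D P (trC Γ) (tr k M) (tr 1 A)

theorem pi2_typed (H : Cond P) {C : Prop} {Δ : List (Tm S)} {I b : Tm S} {a e c : S}
    (hI : J P C Δ I (sort a)) (hb : J P C (blkC I Δ) b (sort e)) (hr : P.rule a e c) :
    J P C Δ (pi2 I b) (sort c) :=
  .prod hI (.prod (J.wk hI hI) hb hr) (H.absorb _ _ _ hr)

theorem pure_of_J (H : Cond P) {Γ} {M A : Tm S} (h : D P Γ M A) : Pure P Γ M A := by
  induction h with
  | @ax s t h => exact ⟨.nil, fun k _ => J.ax h⟩
  | const hC => exact hC.elim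
  | @vr Γ A s h ih =>
    have hI := ih.2 1 (by omega)
    have hw : WF P False (trC (A :: Γ)) := blk_wf hI
    refine ⟨hw, fun k hk => ?_⟩
    have e : tr 1 A.shift = (tr 1 A).ren (· + 2) := by
      rw [Tm.shift, tr_ren _ _ (by omega), bl_succ]
    rcases k with _ | _ | k
    · have := J.look hw (Look.here (tr 1 A).shift _)
      simp only [Tm.shift, ren_ren] at this
      rw [e]; exact this
    · have := J.look hw (Look.there (tr 1 A).shift (Look.here (tr 1 A) _))
      simp only [Tm.shift, ren_ren] at this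
      rw [e]; exact this
    · omega
  | @wk Γ M B A s h hA ih1 ih2 =>
    have hw : WF P False (trC (A :: Γ)) := blk_wf (ih2.2 1 (by omega))
    refine ⟨hw, fun k hk => ?_⟩
    have := (ih1.2 k hk).rename hw (trC_weak A)
    simp only [Tm.shift, tr_ren _ _ hk, tr_ren _ _ (show 1 < 2 by omega), bl_succ]
    exact this
  | @prod Γ A B a b c hA hB hr ih1 ih2 =>
    refine ⟨ih1.1, fun k hk => ?_⟩
    have hI := ih1.2 1 (by omega)
    simp only [tr]
    split_ifs
    · have w2 : WF P False (trC (A :: Γ)) := ih2.1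
      have hC : D P (trC (A :: Γ)) (cmp ((tr 0 A).ren (· + 2)) ((tr 1 A).ren (· + 2))) (sort a) :=
        cmp_typed H ((ih1.2 0 (by omega)).rename w2 (trC_weak A))
          (hI.rename w2 (trC_weak A))
      have hD : D P _ _ (sort b) :=
        cmp_typed H (J.wk (ih2.2 0 (by omega)) hC) (J.wk (ih2.2 1 (by omega)) hC)
      exact pi2_typed H hI (J.prod hC hD hr) (H.absorb _ _ _ hr)
    · exact pi2_typed H hI (ih2.2 k hk) hr
  | @abs Γ A M B a b c hA hB hr hM ih1 ih2 ih3 =>
    refine ⟨ih1.1, fun k hk => ?_⟩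
    have hI := ih1.2 1 (by omega)
    simp only [tr]
    rw [if_neg (by omega)]
    exact J.abs hI (J.prod (J.wk hI hI) (ih2.2 1 (by omega)) hr) (H.absorb _ _ _ hr)
      (J.abs (J.wk hI hI) (ih2.2 1 (by omega)) hr (ih3.2 k hk))
  | @apply Γ M N A B a b c hA hB hr hM hN hBN ih1 ih2 ih3 ih4 ih5 =>
    refine ⟨ih1.1, fun k hk => ?_⟩
    have hM' := ih3.2 k hk
    simp only [tr] at hM'
    rw [if_neg (by omega)] at hM'
    have h1 := hM'.app' (ih4.2 1 (by omega))
    simp only [inst, sub, shift_scons, sub_var] at h1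
    have h2 := h1.app' (ih4.2 0 (by omega))
    simp only [inst, sub_sub] at h2
    rw [inst, tr_sub _ _ (by omega), bsub_scons]
    simp only [tr, app2]
    have e : (fun n => sub (scons (tr 0 N) var) (up (scons (tr 1 N) var) n)) =
        sc2 (tr 1 N) (tr 0 N) := ?_
    · rw [e] at h2; exact h2
    funext i
    rcases i with _ | _ | i <;> simp [up, scons, sc2, sub, shift_scons, sub_var]
  | @conv Γ M A B s hM hB he ih1 ih2 =>
    exact ⟨ih1.1, fun k hk => J.conv (ih1.2 k hk) (ih2.2 1 (by omega)) (tr_eqv he (by omega))⟩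

end Vale.Agent.P340
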