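import Vale.Agent.P340.Skel
import Vale.Agent.P340.Pure
import Vale.Agent.P340.Conv

namespace Vale.Agent.P340
open Tm

variable {S : Type} {P : Spec S}

/-- Position in the three-block context of a position in the two-block context. -/
def kap (i : ℕ) : ℕ := 3 * (i / 2) + i % 2 + 1

theorem kap_eq : Nat.succ ∘ lr2 kap = kap := by
  funext i
  rcases i with _ | _ | i
  · rfl
  · rfl
  · simp only [Function.comp_apply, lr2, lr, Term.liftRen, kap]; omega

theorem kap_eq' (M : Tm S) : (M.ren (lr2 kap)).shift = M.ren kap := by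
  rw [Tm.shift, ren_ren, kap_eq]

theorem kap_add : kap ∘ (fun i => i + 2) = (fun i => i + 3) ∘ kap := by
  funext i; simp only [Function.comp_apply, kap]; omega

/-- The companion computation type of the newest source variable, in a two-block context. -/
def compA (A : Tm S) : Tm S := cmp ((tr 0 A).ren (· + 2)) ((tr 1 A).ren (· + 2))

/-- The three-block context. -/
def trC3 : List (Tm S) → List (Tm S)
  | [] => []
  | A :: Γ => (compA A).ren (lr2 kap) :: blkC ((tr 1 A).ren kap) (trC3 Γ)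

theorem tren_kap : ∀ (Γ : List (Tm S)), TRen (trC Γ) (trC3 Γ) kap
  | [] => fun _ _ h => by cases h
  | A :: Γ => fun n B h => by
    have h1 := blk_lift (tren_kap Γ) (tr 1 A) n B h
    have h2 := Look.there ((compA A).ren (lr2 kap)) h1
    rw [kap_eq' B] at h2
    have e : lr2 kap n + 1 = kap n := congrFun kap_eq n
    rw [e] at h2
    exact h2

theorem tren_3 (A : Tm S) (Γ : List (Tm S)) : TRen (trC3 Γ) (trC3 (A :: Γ)) (· + 3) := by
  intro n B h
  have := Look.there ((compA A).ren (lr2 kap))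
    (Look.there ((tr 1 A).ren kap).shift (Look.there ((tr 1 A).ren kap) h))
  simp only [trC3, blkC, Tm.shift, ren_ren] at this ⊢
  exact this

/-- A term of any given type, headed by a constant. -/
theorem gen (H : Cond P) : ∀ {Δ : List (Tm S)} {X : Tm S} {s : S}, D P Δ X (sort s) →
    ∃ t, T P Δ t X ∧ U.HA t.skel
  | [], X, s, h => by
    refine ⟨con (toTerm X), ?_, .atom⟩
    have := J.const (C := True) (P := P) trivial (typing_of_J h)
      (by rw [h.pureterm.1]; exact D.up h)
    rw [h.pureterm.1] at this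
    exact this
  | A :: Δ, X, s, h => by
    cases h.wf with
    | cons hw hA =>
      obtain ⟨c, hc⟩ := H.prod hA h
      obtain ⟨t, ht, hHA⟩ := gen H hc
      have hwT := WF.cons (C := True) ht.wf (D.up hA)
      have h1 : T P (A :: Δ) t.shift (pi A.shift (X.ren (lr Nat.succ))) := J.wk ht (D.up hA)
      have h2 := h1.app' (J.look hwT (Look.here A Δ))
      refine ⟨app t.shift (var 0), ?_, ?_⟩
      · have e : (X.ren (lr Nat.succ)).inst (var 0) = X := by
          rw [inst, ren_sub]
          conv_rhs => rw [← sub_var X]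
          congr 1; funext i; cases i <;> rfl
        rw [e] at h2
        exact h2
      · simp only [skel, Tm.shift, skel_ren]
        rw [U.ren_eq_sub]
        exact .app _ (hHA.sub _)

/-- Keep a payload next to a result. -/
theorem memT (H : Cond P) {Δ : List (Tm S)} {p r X R : Tm S} {x y : S} (hX : D P Δ X (sort x))
    (hR : D P Δ R (sort y)) (hp : T P Δ p X) (hr : T P Δ r R) :
    ∃ m, T P Δ m R ∧ ∃ j, m.skel = U.app (U.app j p.skel) r.skel ∧ U.HA j := by
  have hR1 := J.wk hR hX
  obtain ⟨z, hz⟩ := H.prod hR1 (J.wk hR1 hR1)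
  obtain ⟨c, hc⟩ := H.prod hX hz
  obtain ⟨g, hg, hHA⟩ := gen H hc
  refine ⟨app (app g p) r, ?_, _, rfl, hHA⟩
  have h2 := hg.app' hp
  simp only [inst, sub, shift_sub, shift_scons, sub_var] at h2
  have h3 := h2.app' hr
  simp only [inst, shift_scons, sub_var] at h3
  exact h3

/-- Change the answer type. -/
theorem jmpT (H : Cond P) {Δ : List (Tm S)} {r R R' : Tm S} {x y : S} (hR : D P Δ R (sort x))
    (hR' : D P Δ R' (sort y)) (hr : T P Δ r R) :
    ∃ m, T P Δ m R' ∧ ∃ j, m.skel = U.app j r.skel ∧ U.HA j := by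
  obtain ⟨c, hc⟩ := H.prod hR (J.wk hR' hR)
  obtain ⟨g, hg, hHA⟩ := gen H hc
  refine ⟨app g r, ?_, _, rfl, hHA⟩
  have h2 := hg.app' hr
  simp only [inst, shift_scons, sub_var] at h2
  exact h2

/-- The computation type of a type. -/
def cty (A : Tm S) : Tm S := (cmp (tr 0 A) (tr 1 A)).ren kap

/-- Environment sending a source variable to its computation variable, after a renaming. -/
def rho (f : ℕ → ℕ) (n : ℕ) : U := U.var (f (3 * n))

/-- A sort without a type. -/
def Untyped (P : Spec S) (A : Tm S) : Prop := ∃ τ, A = sort τ ∧ ∀ t, ¬ P.ax τ t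

def CpsOK (P : Spec S) (Γ : List (Tm S)) (M A : Tm S) : Prop :=
  WF P False (trC3 Γ) ∧
  (∀ s, D P Γ A (sort s) → ∃ q, T P (trC3 Γ) q (cty A) ∧ Sim (rho id) M q.skel) ∧
  (Untyped P A → ∀ (Δ : List (Tm S)) (f : ℕ → ℕ) (V R : Tm S) (s : S),
    WF P False Δ → TRen (trC3 Γ) Δ f → D P Δ V (sort s) → D P Δ R (sort s) →
      ∃ q, T P Δ q (cmp V R) ∧ Sim (rho f) M q.skel)

theorem comps_typed (H : Cond P) {Γ} {A : Tm S} {s : S} (hA : D P Γ A (sort s))
    (hw : WF P False (trC3 Γ)) :
    D P (trC3 Γ) ((tr 0 A).ren kap) (sort s) ∧ D P (trC3 Γ) ((tr 1 A).ren kap) (sort s) ∧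
      D P (trC3 Γ) (cty A) (sort s) := by
  have h0 := ((pure_of_J H hA).2 0 (by omega)).rename hw (tren_kap Γ)
  have h1 := ((pure_of_J H hA).2 1 (by omega)).rename hw (tren_kap Γ)
  refine ⟨h0, h1, ?_⟩
  rw [cty, cmp_ren]
  exact cmp_typed H h0 h1

theorem wf3_cons (H : Cond P) {Γ : List (Tm S)} {A : Tm S} {s : S}
    (hw : WF P False (trC3 Γ)) (hA : D P Γ A (sort s)) : WF P False (trC3 (A :: Γ)) := by
  have hI := (comps_typed H hA hw).2.1
  have hb := blk_wf hI
  have hwA : WF P False (trC (A :: Γ)) := blk_wf ((pure_of_J H hA).2 1 (by omega))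
  have hC : D P (trC (A :: Γ)) (compA A) (sort s) :=
    cmp_typed H (((pure_of_J H hA).2 0 (by omega)).rename hwA (trC_weak A))
      (((pure_of_J H hA).2 1 (by omega)).rename hwA (trC_weak A))
  exact .cons hb (hC.rename hb (blk_lift (tren_kap Γ) (tr 1 A)))

/-- The main translation of a judgment at some computation type. -/
theorem anyq (H : Cond P) {Γ} {M A : Tm S} (h : D P Γ M A) (hok : CpsOK P Γ M A) :
    ∃ q X s, T P (trC3 Γ) q X ∧ D P (trC3 Γ) X (sort s) ∧ Sim (rho id) M q.skel := by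
  obtain ⟨hw, h1, h2⟩ := hok
  by_cases hu : Untyped P A
  · obtain ⟨τ, rfl, hτ⟩ := hu
    have hm := ((pure_of_J H h).2 1 (by omega)).rename hw (tren_kap Γ)
    obtain ⟨q, hq, hs⟩ := h2 ⟨τ, rfl, hτ⟩ _ id _ _ τ hw
      (fun n B hB => by
        have e : (id : ℕ → ℕ) = fun n => n := rfl
        rw [ren_eq_sub]; simpa [e, sub_var] using hB) hm hm
    exact ⟨q, _, _, hq, cmp_typed H hm hm, hs⟩
  · have : ∃ s, D P Γ A (sort s) := by
      rcases h.valid with ht | ⟨τ, rfl⟩
      · exact ht
      · by_contra hc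
        refine hu ⟨τ, rfl, fun t ht => hc ⟨t, J.closed_ax h.wf ht⟩⟩
    obtain ⟨s, hs⟩ := this
    obtain ⟨q, hq, hsim⟩ := h1 s hs
    exact ⟨q, _, _, hq, (comps_typed H hs hw).2.2, hsim⟩

end Vale.Agent.P340
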