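import Mathlib

namespace Vale.Agent.P340

/-- A pure type specification with sort type `S`: the two relations of a specification. -/
structure Spec (S : Type) where
  ax : S → S → Prop
  rule : S → S → S → Prop

/-- Expressions with de Bruijn indices (an expression is taken modulo renaming of bound
variables). `pi A B` and `lam A B` bind one variable in `B`. -/
inductive Term (S : Type) : Type
  | var (n : ℕ)
  | sort (s : S)
  | app (M N : Term S)
  | lam (A M : Term S)
  | pi (A B : Term S)

namespace Term
variable {S : Type}

def liftRen (f : ℕ → ℕ) : ℕ → ℕ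
  | 0 => 0
  | n + 1 => f n + 1

def rename (f : ℕ → ℕ) : Term S → Term S
  | var n => var (f n)
  | sort s => sort s
  | app M N => app (M.rename f) (N.rename f)
  | lam A M => lam (A.rename f) (M.rename (liftRen f))
  | pi A B => pi (A.rename f) (B.rename (liftRen f))

def shift (M : Term S) : Term S := M.rename Nat.succ

def liftSub (σ : ℕ → Term S) : ℕ → Term S
  | 0 => var 0
  | n + 1 => (σ n).shift

def subst (σ : ℕ → Term S) : Term S → Term S
  | var n => σ n
  | sort s => sort s
  | app M N => app (M.subst σ) (N.subst σ)
  | lam A M => lam (A.subst σ) (M.subst (liftSub σ))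
  | pi A B => pi (A.subst σ) (B.subst (liftSub σ))

/-- Substitution of `N` for the innermost variable. -/
def inst (M N : Term S) : Term S :=
  M.subst fun n => match n with
    | 0 => N
    | n + 1 => var n

/-- One beta step in any subexpression. -/
inductive Beta : Term S → Term S → Prop
  | redex (A M N : Term S) : Beta (app (lam A M) N) (M.inst N)
  | appL {M M'} (N : Term S) : Beta M M' → Beta (app M N) (app M' N)
  | appR (M : Term S) {N N'} : Beta N N' → Beta (app M N) (app M N')
  | lamA {A A'} (M : Term S) : Beta A A' → Beta (lam A M) (lam A' M)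
  | lamM (A : Term S) {M M'} : Beta M M' → Beta (lam A M) (lam A M')
  | piA {A A'} (B : Term S) : Beta A A' → Beta (pi A B) (pi A' B)
  | piB (A : Term S) {B B'} : Beta B B' → Beta (pi A B) (pi A B')

/-- Beta equality on expressions. -/
def BetaEq : Term S → Term S → Prop := Relation.EqvGen Beta

def Normal (M : Term S) : Prop := ∀ N, ¬ Beta M N

def WeaklyNormalizing (M : Term S) : Prop :=
  ∃ N, Relation.ReflTransGen Beta M N ∧ Normal N

def StronglyNormalizing (M : Term S) : Prop :=
  ¬ ∃ f : ℕ → Term S, f 0 = M ∧ ∀ n, Beta (f n) (f (n + 1))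

end Term

open Term in
/-- The seven typing rules; the head of a context is its last variable. -/
inductive Typing {S : Type} (P : Spec S) : List (Term S) → Term S → Term S → Prop
  | ax' {s₁ s₂} : P.ax s₁ s₂ → Typing P [] (sort s₁) (sort s₂)
  | variable' {Γ A s} : Typing P Γ A (sort s) → Typing P (A :: Γ) (var 0) A.shift
  | weakening {Γ M B A s} : Typing P Γ M B → Typing P Γ A (sort s) →
      Typing P (A :: Γ) M.shift B.shift
  | product {Γ A B s₁ s₂ s₃} : Typing P Γ A (sort s₁) → Typing P (A :: Γ) B (sort s₂) →
      P.rule s₁ s₂ s₃ → Typing P Γ (pi A B) (sort s₃)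
  | abstraction {Γ A M B s} : Typing P (A :: Γ) M B → Typing P Γ (pi A B) (sort s) →
      Typing P Γ (lam A M) (pi A B)
  | application {Γ M N A B} : Typing P Γ M (pi A B) → Typing P Γ N A →
      Typing P Γ (app M N) (B.inst N)
  | conversion {Γ M A B s} : Typing P Γ M A → Typing P Γ B (sort s) → BetaEq A B →
      Typing P Γ M B

/-- An expression is legal if it is the subject or the type of a derivable judgment. -/
def Legal {S : Type} (P : Spec S) (M : Term S) : Prop :=
  (∃ Γ B, Typing P Γ M B) ∨ (∃ Γ N, Typing P Γ N M)

def IsWN {S : Type} (P : Spec S) : Prop := ∀ M, Legal P M → M.WeaklyNormalizing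

def IsSN {S : Type} (P : Spec S) : Prop := ∀ M, Legal P M → M.StronglyNormalizing

end Vale.Agent.P340
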