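import Vale.Agent.P340.Main

namespace Vale.Agent.P340
open Tm

variable {S : Type} {P : Spec S}

/-- Replacement of constants by terms. -/
def cs : (Term S → Tm S) → Tm S → Tm S
  | _, .var n => .var n
  | ξ, .con c => ξ c
  | _, .sort s => .sort s
  | ξ, .app M N => .app (cs ξ M) (cs ξ N)
  | ξ, .lam A M => .lam (cs ξ A) (cs (fun c => (ξ c).shift) M)
  | ξ, .pi A M => .pi (cs ξ A) (cs (fun c => (ξ c).shift) M)

theorem cs_ren (M : Tm S) : ∀ (ξ ξ' : Term S → Tm S) f, (∀ c, ξ' c = (ξ c).ren f) →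
    cs ξ' (M.ren f) = (cs ξ M).ren f := by
  induction M with
  | var n => intros; rfl
  | con c => intro ξ ξ' f h; exact h c
  | sort s => intros; rfl
  | app M N ih1 ih2 => intro ξ ξ' f h; simp [cs, ren, ih1 ξ ξ' f h, ih2 ξ ξ' f h]
  | lam A M ih1 ih2 =>
    intro ξ ξ' f h
    simp only [cs, ren, ih1 ξ ξ' f h]
    rw [ih2 (fun c => (ξ c).shift) (fun c => (ξ' c).shift) (lr f)
      (fun c => by simp only [h c, Tm.shift, ren_ren]; rfl)]
  | pi A M ih1 ih2 =>
    intro ξ ξ' f h
    simp only [cs, ren, ih1 ξ ξ' f h]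
    rw [ih2 (fun c => (ξ c).shift) (fun c => (ξ' c).shift) (lr f)
      (fun c => by simp only [h c, Tm.shift, ren_ren]; rfl)]

theorem cs_up (σ σ' : ℕ → Tm S) (ξ : Term S → Tm S) (h : ∀ n, cs ξ (σ n) = σ' n) :
    ∀ n, cs (fun c => (ξ c).shift) (up σ n) = up σ' n := by
  intro n; cases n with
  | zero => rfl
  | succ n =>
    show cs _ ((σ n).ren Nat.succ) = (σ' n).ren Nat.succ
    rw [cs_ren _ ξ _ Nat.succ (fun _ => rfl), h]

theorem cs_sub (M : Tm S) : ∀ (ξ ξ' : Term S → Tm S) (σ σ' : ℕ → Tm S),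
    (∀ n, cs ξ (σ n) = σ' n) → (∀ c, (ξ' c).sub σ' = ξ c) →
    cs ξ (M.sub σ) = (cs ξ' M).sub σ' := by
  induction M with
  | var n => intro ξ ξ' σ σ' h _; exact h n
  | con c => intro ξ ξ' σ σ' _ h; exact (h c).symm
  | sort s => intros; rfl
  | app M N ih1 ih2 =>
    intro ξ ξ' σ σ' h h'; simp [cs, sub, ih1 ξ ξ' σ σ' h h', ih2 ξ ξ' σ σ' h h']
  | lam A M ih1 ih2 =>
    intro ξ ξ' σ σ' h h'
    simp only [cs, sub, ih1 ξ ξ' σ σ' h h']
    rw [ih2 _ (fun c => (ξ' c).shift) _ (up σ') (cs_up σ σ' ξ h)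
      (fun c => by rw [shift_sub, h' c])]
  | pi A M ih1 ih2 =>
    intro ξ ξ' σ σ' h h'
    simp only [cs, sub, ih1 ξ ξ' σ σ' h h']
    rw [ih2 _ (fun c => (ξ' c).shift) _ (up σ') (cs_up σ σ' ξ h)
      (fun c => by rw [shift_sub, h' c])]

theorem cs_inst (ξ : Term S → Tm S) (M N : Tm S) :
    cs ξ (M.inst N) = (cs (fun c => (ξ c).shift) M).inst (cs ξ N) := by
  refine cs_sub M ξ _ _ _ (fun n => ?_) (fun c => by rw [shift_scons, sub_var])
  cases n <;> rfl

theorem cs_step {M N : Tm S} (h : Step M N) : ∀ ξ, Step (cs ξ M) (cs ξ N) := by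
  induction h with
  | redex A M N => intro ξ; rw [cs_inst]; exact .redex _ _ _
  | appL N _ ih => intro ξ; exact .appL _ (ih ξ)
  | appR M _ ih => intro ξ; exact .appR _ (ih ξ)
  | lamA M _ ih => intro ξ; exact .lamA _ (ih ξ)
  | lamM A _ ih => intro ξ; exact .lamM _ (ih _)
  | piA B _ ih => intro ξ; exact .piA _ (ih ξ)
  | piB A _ ih => intro ξ; exact .piB _ (ih _)

/-- A closed type with a sort. -/
def ClosedType (P : Spec S) (c : Term S) : Prop := ∃ s, Typing P [] c (Term.sort s)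

/-- The context declaring a variable for each constant of `L`. -/
def hctx (L : List (Term S)) : List (Tm S) := L.map toTm

theorem closed_in (c : Term S) (hc : ClosedType P c) {Δ : List (Tm S)} (hw : WF P False Δ) :
    ∃ s, J P False Δ (toTm c) (sort s) ∧ ∀ f, (toTm c).ren f = toTm c := by
  obtain ⟨s, hs⟩ := hc
  have h := J_of_typing (C := False) hs
  refine ⟨s, ?_, h.closed_ren⟩
  have := h.rename (f := id) hw (fun n A hA => by cases hA)
  rw [h.closed_ren] at this
  exact this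

theorem hctx_wf : ∀ L : List (Term S), (∀ c ∈ L, ClosedType P c) → WF P False (hctx L)
  | [], _ => .nil
  | c :: L, hL => by
    have hw := hctx_wf L fun d hd => hL d (List.mem_cons_of_mem _ hd)
    obtain ⟨s, hs, _⟩ := closed_in c (hL c (by simp)) hw
    exact .cons hw hs

theorem hctx_look : ∀ (L : List (Term S)) (c : Term S) [DecidableEq (Term S)], c ∈ L →
    (∀ d ∈ L, ClosedType P d) → Look (hctx L) (L.idxOf c) (toTm c)
  | d :: L, c, _, h, hL => by
    have hcl : (toTm c).shift = toTm c :=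
      (closed_in c (hL c h) (P := P) .nil).choose_spec.2 _
    by_cases e : d = c
    · subst e
      rw [List.idxOf_cons_self]
      exact hcl ▸ Look.here (toTm d) (hctx L)
    · rw [List.idxOf_cons_ne _ e]
      exact hcl ▸ Look.there (toTm d) (hctx_look L c ((List.mem_cons.1 h).resolve_left (Ne.symm e))
        fun x hx => hL x (List.mem_cons_of_mem _ hx))

theorem cs_toTm (c : Term S) : ∀ ξ, cs ξ (toTm c) = toTm c := by
  induction c <;> intros <;> simp [cs, toTm, *]

open Classical in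
/-- Variable standing for a constant, below a context of length `n`. -/
noncomputable def hv (L : List (Term S)) (n : ℕ) (c : Term S) : Tm S := var (n + L.idxOf c)

theorem hv_succ (L : List (Term S)) (n : ℕ) : hv L (n + 1) = fun c => (hv L n c).shift := by
  funext c; simp only [hv, Tm.shift, ren]; congr 1; omega

noncomputable def lowC (L : List (Term S)) : List (Tm S) → List (Tm S)
  | [] => hctx L
  | A :: Δ => cs (hv L Δ.length) A :: lowC L Δ

/-- `L` can be used for the constants of `F`. -/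
def Covers (P : Spec S) (F L : List (Term S)) : Prop := F ⊆ L ∧ ∀ c ∈ L, ClosedType P c

theorem Covers.left {F G L : List (Term S)} (h : Covers P (F ++ G) L) : Covers P F L :=
  ⟨(List.append_subset.1 h.1).1, h.2⟩

theorem Covers.right {F G L : List (Term S)} (h : Covers P (F ++ G) L) : Covers P G L :=
  ⟨(List.append_subset.1 h.1).2, h.2⟩

theorem closed_append {F G : List (Term S)} (hF : ∀ c ∈ F, ClosedType P c)
    (hG : ∀ c ∈ G, ClosedType P c) : ∀ c ∈ F ++ G, ClosedType P c :=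
  fun c hc => (List.mem_append.1 hc).elim (hF c) (hG c)

theorem lower {Δ : List (Tm S)} {M A : Tm S} (h : T P Δ M A) :
    ∃ F : List (Term S), (∀ c ∈ F, ClosedType P c) ∧ ∀ L, Covers P F L →
      J P False (lowC L Δ) (cs (hv L Δ.length) M) (cs (hv L Δ.length) A) := by
  classical
  induction h with
  | @ax a b h =>
    exact ⟨[], by simp, fun L hL => J.closed_ax (hctx_wf L hL.2) h⟩
  | @const c s _ h _ _ =>
    refine ⟨[c], fun d hd => (List.mem_singleton.1 hd) ▸ ⟨s, h⟩, fun L hL => ?_⟩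
    show J P False (hctx L) (var (0 + L.idxOf c)) (cs _ (toTm c))
    rw [Nat.zero_add, cs_toTm]
    exact J.look (hctx_wf L hL.2) (hctx_look L c (hL.1 (by simp)) hL.2)
  | @vr Γ A s _ ih =>
    obtain ⟨F, hc, hF⟩ := ih
    refine ⟨F, hc, fun L hL => ?_⟩
    simp only [List.length_cons, hv_succ]
    rw [Tm.shift, cs_ren A _ _ Nat.succ (fun _ => rfl)]
    exact J.vr (hF L hL)
  | @wk Γ M B A s _ _ ih1 ih2 =>
    obtain ⟨F, hcF, hF⟩ := ih1
    obtain ⟨G, hcG, hG⟩ := ih2
    refine ⟨F ++ G, closed_append hcF hcG, fun L hL => ?_⟩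
    simp only [List.length_cons, hv_succ]
    rw [Tm.shift, Tm.shift, cs_ren M _ _ Nat.succ (fun _ => rfl),
      cs_ren B _ _ Nat.succ (fun _ => rfl)]
    exact J.wk (hF L hL.left) (hG L hL.right)
  | @prod Γ A B a b c _ _ hr ih1 ih2 =>
    obtain ⟨F, hcF, hF⟩ := ih1
    obtain ⟨G, hcG, hG⟩ := ih2
    refine ⟨F ++ G, closed_append hcF hcG, fun L hL => ?_⟩
    have := hG L hL.right
    simp only [List.length_cons, hv_succ] at this
    exact J.prod (hF L hL.left) this hr
  | @abs Γ A M B a b c _ _ hr _ ih1 ih2 ih3 =>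
    obtain ⟨F, hcF, hF⟩ := ih1
    obtain ⟨G, hcG, hG⟩ := ih2
    obtain ⟨K, hcK, hK⟩ := ih3
    refine ⟨F ++ (G ++ K), closed_append hcF (closed_append hcG hcK), fun L hL => ?_⟩
    have e2 := hG L hL.right.left
    have e3 := hK L hL.right.right
    simp only [List.length_cons, hv_succ] at e2 e3
    exact J.abs (hF L hL.left) e2 hr e3
  | @apply Γ M N A B a b c _ _ hr _ _ _ ih1 ih2 ih3 ih4 ih5 =>
    obtain ⟨F1, hc1, hF1⟩ := ih3
    obtain ⟨F2, hc2, hF2⟩ := ih4
    refine ⟨F1 ++ F2, closed_append hc1 hc2, fun L hL => ?_⟩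
    rw [cs_inst]
    exact (hF1 L hL.left).app' (hF2 L hL.right)
  | @conv Γ M A B s _ _ he ih1 ih2 =>
    obtain ⟨F, hcF, hF⟩ := ih1
    obtain ⟨G, hcG, hG⟩ := ih2
    refine ⟨F ++ G, closed_append hcF hcG, fun L hL => ?_⟩
    exact J.conv (hF L hL.left) (hG L hL.right) (Eqv.map (fun h => Eqv.step (cs_step h _)) he)

/-- Substitutions whose values are variables or the constant. -/
def Flat (σ : ℕ → U) : Prop := ∀ n, σ n = U.atom ∨ ∃ m, σ n = U.var m

theorem Flat.up {σ : ℕ → U} (h : Flat σ) : Flat (U.up σ) := by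
  intro n; cases n with
  | zero => exact Or.inr ⟨0, rfl⟩
  | succ n =>
    rcases h n with e | ⟨m, e⟩
    · exact Or.inl (by simp [U.up, e, U.ren])
    · exact Or.inr ⟨m + 1, by simp [U.up, e, U.ren]⟩

theorem normal_sub : ∀ (M : U) (σ : ℕ → U), Flat σ → (∀ Q, ¬ U.Step M Q) →
    ∀ Q, ¬ U.Step (M.sub σ) Q := by
  intro M
  induction M with
  | var n =>
    intro σ hσ _ Q h
    rcases hσ n with e | ⟨m, e⟩ <;> simp only [U.sub, e] at h <;> cases h
  | atom => intro σ _ _ Q h; cases h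
  | lam M ih =>
    intro σ hσ hn Q h
    cases h with
    | lam h => exact ih _ hσ.up (fun X hX => hn _ (.lam hX)) _ h
  | app M N ih1 ih2 =>
    intro σ hσ hn Q h
    simp only [U.sub] at h
    generalize hm : M.sub σ = m at h
    cases h with
    | redex b _ =>
      cases M with
      | lam b => exact hn _ (.redex _ _)
      | var n => rcases hσ n with e | ⟨k, e⟩ <;> simp [U.sub, e] at hm
      | atom => cases hm
      | app _ _ => cases hm
    | appL _ h => exact ih1 σ hσ (fun X hX => hn _ (.appL _ hX)) _ (hm ▸ h)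
    | appR _ h => exact ih2 σ hσ (fun X hX => hn _ (.appR _ hX)) _ h

theorem U.Step.subst {M N : U} (h : U.Step M N) : ∀ σ, U.Step (M.sub σ) (N.sub σ) := by
  induction h with
  | redex M N => intro σ; rw [U.inst_sub]; exact .redex _ _
  | appL N _ ih => intro σ; exact .appL _ (ih σ)
  | appR M _ ih => intro σ; exact .appR _ (ih σ)
  | lam _ ih => intro σ; exact .lam (ih _)

theorem cs_collapse (M : Tm S) : ∀ (σ : ℕ → U) (ξ : Term S → Tm S),
    (∀ c, (ξ c).skel.sub σ = U.atom) → (cs ξ M).skel.sub σ = M.skel.sub σ := by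
  have hup : ∀ (σ : ℕ → U) (ξ : Term S → Tm S), (∀ c, (ξ c).skel.sub σ = U.atom) →
      ∀ c, ((ξ c).shift).skel.sub (U.up σ) = U.atom := by
    intro σ ξ h c
    rw [Tm.shift, skel_ren]
    show ((ξ c).skel.shift).sub (U.up σ) = U.atom
    rw [U.shift_sub, h c]; rfl
  induction M with
  | var n => intros; rfl
  | con c => intro σ ξ h; exact h c
  | sort s => intros; rfl
  | app M N ih1 ih2 => intro σ ξ h; simp [cs, skel, U.sub, ih1 σ ξ h, ih2 σ ξ h]
  | lam A M _ ih2 => intro σ ξ h; simp [cs, skel, U.sub, ih2 _ _ (hup σ ξ h)]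
  | pi A M ih1 ih2 => intro σ ξ h; simp [cs, skel, U.sub, ih1 σ ξ h, ih2 _ _ (hup σ ξ h)]

theorem sn_subject (H : Cond P) (hWN : IsWN P) {Γ : List (Term S)} {M A : Term S}
    (h : Typing P Γ M A) : M.StronglyNormalizing := by
  have hD := J_of_typing (C := False) h
  obtain ⟨q, X, s, hq, _, hsim⟩ := anyq H hD (cps_of_J H hD)
  obtain ⟨F, hcF, hF⟩ := lower hq
  have hJ := hF F ⟨fun _ hx => hx, hcF⟩
  set ξ := hv F (trC3 (Γ.map toTm)).length with hξ
  obtain ⟨N, hred, hnorm⟩ := hWN _ (Or.inl ⟨_, _, typing_of_J hJ⟩)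
  -- transfer the normal form to the skeleton, collapsing free variables
  let σ : ℕ → U := fun _ => U.atom
  have hred' : Relation.ReflTransGen U.Step ((toTm (toTerm (cs ξ q))).skel.sub σ)
      ((toTm N).skel.sub σ) :=
    ((skel_reds (hred.lift toTm fun _ _ h => toTm_step h)).lift (U.sub σ) fun _ _ h => h.subst σ)
  rw [hJ.pureterm.1, cs_collapse q σ ξ (fun c => rfl)] at hred'
  have hnN : ∀ X, ¬ Step (toTm N) X := by
    intro X hX
    have hp : Pureterm (toTm N) := by unfold Pureterm; rw [toTerm_toTm]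
    have := (step_pureterm hX hp).1
    rw [toTerm_toTm] at this
    exact hnorm _ this
  have hn := U.nm_of_normalizing hred'
    (normal_sub _ σ (fun _ => Or.inl rfl) (skel_normal _ hnN))
  have hsn : Tm.SN (toTm M) :=
    sn_of_sim (fun _ => U.Ne.atom) (hsim.sub σ) hn
  rintro ⟨f, hf0, hf⟩
  have key : ∀ X, Tm.SN X → ∀ n, toTm (f n) = X → False := by
    intro X hX
    induction hX with
    | intro X _ ih => intro n e; exact ih _ (e ▸ toTm_step (hf n)) (n + 1) rfl
  exact key _ hsn 0 (by rw [hf0])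

theorem sort_sn (s : S) : (Term.sort s).StronglyNormalizing := by
  rintro ⟨f, hf0, hf⟩
  have := hf 0
  rw [hf0] at this
  cases this

theorem isSN (H : Cond P) (hWN : IsWN P) : IsSN P := by
  intro M hM
  rcases hM with ⟨Γ, B, h⟩ | ⟨Γ, N, h⟩
  · exact sn_subject H hWN h
  · rcases (J_of_typing (C := False) h).valid with ⟨s, hs⟩ | ⟨s, e⟩
    · have h' := typing_of_J hs
      rw [toTerm_toTm] at h'
      exact sn_subject H hWN h'
    · have := congrArg toTerm e
      rw [toTerm_toTm] at this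
      rw [this]
      exact sort_sn s

end Vale.Agent.P340
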