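import Vale.Agent.P340.Syntax

namespace Vale.Agent.P340
open Tm

variable {S : Type}

/-- Internal typing: the seven rules with redundant premises in abstraction and application,
and (if `C` holds) constants `con c` of closed type `c`. -/
inductive J (P : Spec S) (C : Prop) : List (Tm S) → Tm S → Tm S → Prop
  | ax {a b} : P.ax a b → J P C [] (sort a) (sort b)
  | const {c s} : C → Typing P [] c (Term.sort s) → J P C [] (toTm c) (sort s) →
      J P C [] (con c) (toTm c)
  | vr {Γ A s} : J P C Γ A (sort s) → J P C (A :: Γ) (var 0) A.shift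
  | wk {Γ M B A s} : J P C Γ M B → J P C Γ A (sort s) → J P C (A :: Γ) M.shift B.shift
  | prod {Γ A B a b c} : J P C Γ A (sort a) → J P C (A :: Γ) B (sort b) → P.rule a b c →
      J P C Γ (pi A B) (sort c)
  | abs {Γ A M B a b c} : J P C Γ A (sort a) → J P C (A :: Γ) B (sort b) → P.rule a b c →
      J P C (A :: Γ) M B → J P C Γ (lam A M) (pi A B)
  | apply {Γ M N A B a b c} : J P C Γ A (sort a) → J P C (A :: Γ) B (sort b) → P.rule a b c →
      J P C Γ M (pi A B) → J P C Γ N A → J P C Γ (B.inst N) (sort b) →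
      J P C Γ (app M N) (B.inst N)
  | conv {Γ M A B s} : J P C Γ M A → J P C Γ B (sort s) → Eqv A B → J P C Γ M B

/-- Every entry of the context has a sort as its type. -/
inductive WF (P : Spec S) (C : Prop) : List (Tm S) → Prop
  | nil : WF P C []
  | cons {Γ A s} : WF P C Γ → J P C Γ A (sort s) → WF P C (A :: Γ)

inductive Look : List (Tm S) → ℕ → Tm S → Prop
  | here (A : Tm S) (Γ) : Look (A :: Γ) 0 A.shift
  | there {Γ n A} (B : Tm S) : Look Γ n A → Look (B :: Γ) (n + 1) A.shift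

variable {P : Spec S} {C : Prop}

theorem J.scope {Γ} {M T : Tm S} (h : J P C Γ M T) :
    ∀ f g : ℕ → ℕ, (∀ n, n < Γ.length → f n = g n) → M.ren f = M.ren g := by
  induction h with
  | ax _ => intros; rfl
  | const _ _ _ => intros; rfl
  | vr _ => intro f g h; simp only [ren, h 0 (by simp)]
  | wk _ _ ih _ =>
    intro f g h; simp only [Tm.shift, ren_ren]
    exact ih _ _ fun n hn => h (n + 1) (by simp; omega)
  | prod _ _ _ ih1 ih2 =>
    intro f g h; simp only [ren, ih1 f g h]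
    rw [ih2 (lr f) (lr g) fun n hn => by
      cases n <;> simp [lr, Term.liftRen]; exact h _ (by simpa using hn)]
  | abs _ _ _ _ ih1 _ ih3 =>
    intro f g h; simp only [ren, ih1 f g h]
    rw [ih3 (lr f) (lr g) fun n hn => by
      cases n <;> simp [lr, Term.liftRen]; exact h _ (by simpa using hn)]
  | apply _ _ _ _ _ _ _ _ ih3 ih4 _ => intro f g h; simp only [ren, ih3 f g h, ih4 f g h]
  | conv _ _ _ ih _ => exact ih

theorem J.closed_ren {M T : Tm S} (h : J P C [] M T) (f : ℕ → ℕ) : M.ren f = M := by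
  rw [h.scope f id (by simp), ren_eq_sub]; exact sub_var M

theorem J.closed_sub {M T : Tm S} (h : J P C [] M T) (σ : ℕ → Tm S) : M.sub σ = M := by
  have e1 := congrArg (Tm.sub σ) (h.closed_ren fun _ => 0)
  have e2 := congrArg (Tm.sub (scons (σ 0) var)) (h.closed_ren fun n => n + 1)
  have e3 := congrArg (Tm.sub (scons (σ 0) var)) (h.closed_ren fun _ => 0)
  simp only [ren_sub] at e1 e2 e3
  rw [← e1]
  exact (e3.trans e2.symm).trans (sub_var M)

theorem WF.tail {A : Tm S} {Γ} (h : WF P C (A :: Γ)) : WF P C Γ := by cases h; assumption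

theorem J.wf {Γ} {M T : Tm S} (h : J P C Γ M T) : WF P C Γ := by
  induction h with
  | ax _ => exact .nil
  | const _ _ _ _ => exact .nil
  | vr h ih => exact .cons ih h
  | wk _ h _ ih => exact .cons ih h
  | prod _ _ _ ih _ => exact ih
  | abs _ _ _ _ ih _ _ => exact ih
  | apply _ _ _ _ _ _ ih _ _ _ _ => exact ih
  | conv _ _ _ ih _ => exact ih

theorem J.look {Γ} (hw : WF P C Γ) : ∀ {n} {A : Tm S}, Look Γ n A → J P C Γ (var n) A := by
  induction hw with
  | nil => intro n A h; cases h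
  | cons hw hA ih =>
    intro n A h
    cases h with
    | here => exact .vr hA
    | there _ h => exact J.wk (ih h) hA

theorem J.closed_ax {Γ} (hw : WF P C Γ) {a b} (h : P.ax a b) :
    J P C Γ (sort a) (sort b) := by
  induction hw with
  | nil => exact .ax h
  | cons _ hA ih => exact J.wk ih hA

theorem J.closed_const {Γ} (hw : WF P C Γ) {c s} (hC : C) (h : Typing P [] c (Term.sort s))
    (h' : J P C [] (toTm c) (sort s)) : J P C Γ (con c) (toTm c) := by
  induction hw with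
  | nil => exact .const hC h h'
  | cons _ hA ih =>
    have := J.wk ih hA
    rw [Tm.shift, Tm.shift, h'.closed_ren] at this
    exact this

/-- Renamings between contexts. -/
def TRen (Γ Δ : List (Tm S)) (f : ℕ → ℕ) : Prop :=
  ∀ n A, Look Γ n A → Look Δ (f n) (A.ren f)

theorem TRen.lift {Γ Δ : List (Tm S)} {f} (h : TRen Γ Δ f) (A : Tm S) :
    TRen (A :: Γ) (A.ren f :: Δ) (lr f) := by
  intro n B hB
  cases hB with
  | here =>
    have e : (A.shift).ren (lr f) = (A.ren f).shift := by simp only [shift, ren_ren]; rfl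
    rw [e]; exact .here _ _
  | @there Γ m B' _ hB' =>
    have e : (B'.shift).ren (lr f) = (B'.ren f).shift := by simp only [shift, ren_ren]; rfl
    rw [e]; exact .there _ (h _ _ hB')

theorem J.rename {Γ} {M T : Tm S} (h : J P C Γ M T) :
    ∀ {Δ f}, WF P C Δ → TRen Γ Δ f → J P C Δ (M.ren f) (T.ren f) := by
  induction h with
  | ax h => intro Δ f hw _; exact J.closed_ax hw h
  | const hC h h' _ => intro Δ f hw _; rw [h'.closed_ren]; exact J.closed_const hw hC h h'
  | @vr Γ A s h ih => intro Δ f hw hf; exact J.look hw (hf _ _ (.here _ _))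
  | @wk Γ M B A s h hA ih1 ih2 =>
    intro Δ f hw hf
    rw [Tm.shift, Tm.shift, ren_ren, ren_ren]
    refine ih1 hw fun n B' hB' => ?_
    have := hf _ _ (Look.there A hB')
    simpa only [Tm.shift, ren_ren, Function.comp_apply] using this
  | prod _ _ hr ih1 ih2 =>
    intro Δ f hw hf
    exact .prod (ih1 hw hf) (ih2 (.cons hw (ih1 hw hf)) (hf.lift _)) hr
  | abs _ _ hr _ ih1 ih2 ih3 =>
    intro Δ f hw hf
    exact .abs (ih1 hw hf) (ih2 (.cons hw (ih1 hw hf)) (hf.lift _)) hr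
      (ih3 (.cons hw (ih1 hw hf)) (hf.lift _))
  | apply _ _ hr _ _ _ ih1 ih2 ih3 ih4 ih5 =>
    intro Δ f hw hf
    have h5 := ih5 hw hf
    rw [inst_ren] at h5 ⊢
    exact .apply (ih1 hw hf) (ih2 (.cons hw (ih1 hw hf)) (hf.lift _)) hr (ih3 hw hf)
      (ih4 hw hf) h5
  | conv _ _ he ih1 ih2 =>
    intro Δ f hw hf
    exact .conv (ih1 hw hf) (ih2 hw hf) (he.ren f)

/-- Substitutions between contexts. -/
def TSub (P : Spec S) (C : Prop) (Γ Δ : List (Tm S)) (σ : ℕ → Tm S) : Prop :=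
  ∀ n A, Look Γ n A → J P C Δ (σ n) (A.sub σ)

theorem TSub.lift {Γ Δ : List (Tm S)} {σ} (h : TSub P C Γ Δ σ) {A : Tm S} {s}
    (hA : J P C Δ (A.sub σ) (sort s)) : TSub P C (A :: Γ) (A.sub σ :: Δ) (up σ) := by
  intro n B hB
  cases hB with
  | here => rw [shift_sub]; exact .vr hA
  | @there Γ m B' _ hB' =>
    rw [shift_sub]; exact J.wk (h _ _ hB') hA

theorem J.subst {Γ} {M T : Tm S} (h : J P C Γ M T) :
    ∀ {Δ σ}, WF P C Δ → TSub P C Γ Δ σ → J P C Δ (M.sub σ) (T.sub σ) := by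
  induction h with
  | ax h => intro Δ f hw _; exact J.closed_ax hw h
  | const hC h h' _ => intro Δ f hw _; rw [h'.closed_sub]; exact J.closed_const hw hC h h'
  | @vr Γ A s h ih => intro Δ f hw hf; exact hf _ _ (.here _ _)
  | @wk Γ M B A s h hA ih1 ih2 =>
    intro Δ f hw hf
    rw [Tm.shift, Tm.shift, ren_sub, ren_sub]
    refine ih1 hw fun n B' hB' => ?_
    have := hf _ _ (Look.there A hB')
    simpa only [Tm.shift, ren_sub, Function.comp_apply] using this
  | prod _ _ hr ih1 ih2 =>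
    intro Δ f hw hf
    exact .prod (ih1 hw hf) (ih2 (.cons hw (ih1 hw hf)) (hf.lift (ih1 hw hf))) hr
  | abs _ _ hr _ ih1 ih2 ih3 =>
    intro Δ f hw hf
    exact .abs (ih1 hw hf) (ih2 (.cons hw (ih1 hw hf)) (hf.lift (ih1 hw hf))) hr
      (ih3 (.cons hw (ih1 hw hf)) (hf.lift (ih1 hw hf)))
  | apply _ _ hr _ _ _ ih1 ih2 ih3 ih4 ih5 =>
    intro Δ f hw hf
    have h5 := ih5 hw hf
    rw [inst_sub] at h5 ⊢
    exact .apply (ih1 hw hf) (ih2 (.cons hw (ih1 hw hf)) (hf.lift (ih1 hw hf))) hr (ih3 hw hf)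
      (ih4 hw hf) h5
  | conv _ _ he ih1 ih2 =>
    intro Δ f hw hf
    exact .conv (ih1 hw hf) (ih2 hw hf) (he.sub f)

theorem J.instantiate {Γ} {A B T N : Tm S} (h : J P C (A :: Γ) B T) (hN : J P C Γ N A) :
    J P C Γ (B.inst N) (T.inst N) := by
  refine h.subst hN.wf fun n B' hB' => ?_
  cases hB' with
  | here => rw [shift_scons, sub_var]; exact hN
  | there _ hB' => rw [shift_scons, sub_var]; exact J.look hN.wf hB'

theorem J.weaken {Γ} {M T A : Tm S} {s} (h : J P C Γ M T) (hA : J P C Γ A (sort s)) :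
    J P C (A :: Γ) M.shift T.shift := .wk h hA

theorem J.pi_inv {Γ} {M T : Tm S} (h : J P C Γ M T) :
    ∀ A B, M = pi A B → ∃ a b c, P.rule a b c ∧ J P C Γ A (sort a) ∧ J P C (A :: Γ) B (sort b) := by
  induction h with
  | ax _ => intro A B e; cases e
  | const _ _ _ _ => intro A B e; cases e
  | vr _ _ => intro A B e; cases e
  | @wk Γ M B0 A0 s h hA ih _ =>
    intro A B e
    cases M <;> simp [Tm.shift, ren] at e
    obtain ⟨a, b, c, hr, h1, h2⟩ := ih _ _ rfl
    obtain ⟨rfl, rfl⟩ := e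
    have h1' := J.wk h1 hA
    exact ⟨a, b, c, hr, h1', h2.rename (.cons (.cons h.wf hA) h1')
      (TRen.lift (fun n B' hB' => Look.there A0 hB') _)⟩
  | prod h1 h2 hr _ _ => intro A B e; cases e; exact ⟨_, _, _, hr, h1, h2⟩
  | abs _ _ _ _ _ _ _ => intro A B e; cases e
  | apply _ _ _ _ _ _ _ _ _ _ _ => intro A B e; cases e
  | conv _ _ _ ih _ => intro A B e; exact ih A B e

theorem J.sort_inv {Γ} {M T : Tm S} (h : J P C Γ M T) : ∀ a, M = sort a → ∃ b, P.ax a b := by
  induction h with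
  | ax h => intro a e; cases e; exact ⟨_, h⟩
  | const _ _ _ _ => intro a e; cases e
  | vr _ _ => intro a e; cases e
  | @wk Γ M B A s _ _ ih _ =>
    intro a e
    cases M <;> simp [Tm.shift, ren] at e
    subst e; exact ih _ rfl
  | prod _ _ _ _ _ => intro a e; cases e
  | abs _ _ _ _ _ _ _ => intro a e; cases e
  | apply _ _ _ _ _ _ _ _ _ _ _ => intro a e; cases e
  | conv _ _ _ ih _ => exact ih

/-- The conditions on a specification used by the theorem. -/
structure Cond (P : Spec S) : Prop where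
  pairs : ∀ s t, ∃ r, P.rule s t r
  refl : ∀ s, P.rule s s s
  absorb : ∀ a b c, P.rule a b c → P.rule a c c

theorem Cond.prod (H : Cond P) {Δ : List (Tm S)} {A B : Tm S} {a b : S}
    (hA : J P C Δ A (sort a)) (hB : J P C (A :: Δ) B (sort b)) :
    ∃ c, J P C Δ (pi A B) (sort c) := by
  obtain ⟨c, hc⟩ := H.pairs a b
  exact ⟨c, .prod hA hB hc⟩

theorem J.valid {Γ} {M T : Tm S} (h : J P C Γ M T) :
    (∃ s, J P C Γ T (sort s)) ∨ ∃ s, T = sort s := by
  induction h with
  | @ax a b _ => exact Or.inr ⟨b, rfl⟩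
  | @const c s _ _ h' _ => exact Or.inl ⟨s, h'⟩
  | vr h _ => exact Or.inl ⟨_, J.wk h h⟩
  | wk _ hA ih _ =>
    rcases ih with ⟨s, hs⟩ | ⟨s, rfl⟩
    · exact Or.inl ⟨s, J.wk hs hA⟩
    · exact Or.inr ⟨s, rfl⟩
  | @prod _ _ _ _ _ c _ _ _ _ _ => exact Or.inr ⟨c, rfl⟩
  | @abs _ _ _ _ _ _ c h1 h2 hr _ _ _ _ => exact Or.inl ⟨c, .prod h1 h2 hr⟩
  | apply _ _ _ _ _ h5 _ _ _ _ _ => exact Or.inl ⟨_, h5⟩
  | conv _ hB _ _ _ => exact Or.inl ⟨_, hB⟩

theorem J.app' {Γ} {M N A B : Tm S} (hM : J P C Γ M (pi A B))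
    (hN : J P C Γ N A) : J P C Γ (app M N) (B.inst N) := by
  rcases hM.valid with ⟨s, hs⟩ | ⟨s, e⟩
  · obtain ⟨a, b, c, hr, h1, h2⟩ := hs.pi_inv _ _ rfl
    exact .apply h1 h2 hr hM hN (h2.instantiate hN)
  · cases e

theorem J.lam' {Γ} {A M B : Tm S} {b : S} (hM : J P C (A :: Γ) M B) (H : Cond P)
    (hB : J P C (A :: Γ) B (sort b)) : J P C Γ (lam A M) (pi A B) := by
  have hw := hM.wf
  cases hw with
  | @cons _ _ a _ hA =>
    obtain ⟨c, hc⟩ := H.pairs a b
    exact .abs hA hB hc hM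

theorem J.mono {C C' : Prop} (hC : C → C') {Γ} {M T : Tm S} (h : J P C Γ M T) :
    J P C' Γ M T := by
  induction h with
  | ax h => exact .ax h
  | const c h _ ih => exact .const (hC c) h ih
  | vr _ ih => exact .vr ih
  | wk _ _ ih1 ih2 => exact .wk ih1 ih2
  | prod _ _ hr ih1 ih2 => exact .prod ih1 ih2 hr
  | abs _ _ hr _ ih1 ih2 ih3 => exact .abs ih1 ih2 hr ih3
  | apply _ _ hr _ _ _ ih1 ih2 ih3 ih4 ih5 => exact .apply ih1 ih2 hr ih3 ih4 ih5
  | conv _ _ he ih1 ih2 => exact .conv ih1 ih2 he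

theorem J.shiftn {Δ : List (Tm S)} {M A : Tm S} (h : J P C Δ M A) :
    ∀ (l : List (Tm S)), WF P C (l ++ Δ) →
      J P C (l ++ Δ) (M.ren (· + l.length)) (A.ren (· + l.length))
  | [], _ => by
    have e : (fun n : ℕ => n + 0) = id := rfl
    simp only [List.length_nil, e, ren_eq_sub, id]
    simpa [sub_var] using h
  | X :: l, hw => by
    cases hw with
    | cons hw hX =>
      have := J.wk (h.shiftn l hw) hX
      rw [Tm.shift, Tm.shift, ren_ren, ren_ren] at this
      exact this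

end Vale.Agent.P340
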