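import Vale.Agent.P340.Cps

namespace Vale.Agent.P340
open Tm

variable {S : Type} {P : Spec S}

theorem rho_cons : (scons (U.var 0) fun n => (rho id n).ren (· + 3)) = rho id := by
  funext n; cases n <;> simp [scons, rho, U.ren]; omega

theorem rho_ren (f g : ℕ → ℕ) : (fun n => (rho f n).ren g) = rho (g ∘ f) := rfl

/-- A continuation variable applied to a value of the right type. -/
theorem k_app {Δ : List (Tm S)} {V R v : Tm S} (hw : WF P True (pi V R.shift :: Δ))
    (hv : T P (pi V R.shift :: Δ) v V.shift) :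
    T P (pi V R.shift :: Δ) (app (var 0) v) R.shift := by
  have h0 := J.look hw (Look.here (pi V R.shift) Δ)
  have := h0.app' hv
  simp only [inst, Tm.shift, ren_ren, ren_sub] at this
  have e : R.sub (scons v var ∘ lr Nat.succ ∘ Nat.succ) = R.shift := by
    rw [Tm.shift, ren_eq_sub R]; rfl
  rw [e] at this
  exact this

/-- Closing a payload over a block. -/
theorem close3 (H : Cond P) {Γ : List (Tm S)} {A q X : Tm S} {s : S}
    (hq : T P (trC3 (A :: Γ)) q X) (hX : D P (trC3 (A :: Γ)) X (sort s)) :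
    ∃ X' s', T P (trC3 Γ)
      (lam ((tr 1 A).ren kap) (lam ((tr 1 A).ren kap).shift (lam ((compA A).ren (lr2 kap)) q)))
      X' ∧ D P (trC3 Γ) X' (sort s') := by
  cases hX.wf with
  | cons hw1 hC =>
    cases hw1 with
    | cons hw2 hI2 =>
      cases hw2 with
      | cons hw3 hI =>
        obtain ⟨c1, hc1⟩ := H.prod hC hX
        obtain ⟨c2, hc2⟩ := H.prod hI2 hc1
        obtain ⟨c3, hc3⟩ := H.prod hI hc2
        exact ⟨_, c3, ((hq.lam' H (D.up hX)).lam' H (D.up hc1)).lam' H (D.up hc2), hc3⟩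

theorem cps_of_J (H : Cond P) {Γ} {M A : Tm S} (h : D P Γ M A) : CpsOK P Γ M A := by
  induction h with
  | @ax a b h =>
    have core : ∀ (Δ : List (Tm S)) (f : ℕ → ℕ) (V R : Tm S) (s : S),
        D P Δ V (sort s) → D P Δ R (sort s) →
        ∃ q, T P Δ q (cmp V R) ∧ Sim (rho f) (sort a : Tm S) q.skel := by
      intro Δ f V R s hV hR
      have hk : D P Δ (pi V R.shift) (sort s) := .prod hV (.wk hR hV) (H.refl s)
      obtain ⟨v, hv, hHA⟩ := gen H hV
      have hw := (WF.cons hk.wf hk).up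
      have h1 := k_app hw (J.wk hv (D.up hk))
      refine ⟨lam (pi V R.shift) (app (var 0) v.shift), h1.lam' H (D.up (J.wk hR hk)), ?_⟩
      simp only [skel, Tm.shift, skel_ren]
      exact Sim.sort _ a (by rw [U.ren_eq_sub]; exact hHA.sub _)
    refine ⟨.nil, fun s hs => ?_, fun _ Δ f V R s _ _ hV hR => core Δ f V R s hV hR⟩
    obtain ⟨t, ht⟩ := hs.sort_inv b rfl
    exact core [] id _ _ t (J.ax ht) (J.ax ht)
  | const hC => exact hC.elim
  | @vr Γ A s h ih =>
    have hw := wf3_cons H ih.1 h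
    refine ⟨hw, fun s' _ => ⟨var 0, ?_, Sim.var (rho id) 0⟩, ?_⟩
    · have := J.look hw.up (Look.here ((compA A).ren (lr2 kap)) _)
      rw [kap_eq'] at this
      refine Eq.subst (motive := fun X => T P (trC3 (A :: Γ)) (var 0) X) ?_ this
      simp only [cty, compA, Tm.shift, tr_ren _ _ (show 1 < 2 by omega),
        tr_ren _ _ (show 0 < 2 by omega), bl_succ]
    · rintro ⟨τ, e, hτ⟩
      obtain ⟨t, ht⟩ := (J.wk h h).sort_inv τ e
      exact absurd ht (hτ t)
  | @wk Γ M B A s h hA ih1 ih2 =>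
    have hw := wf3_cons H ih1.1 hA
    refine ⟨hw, fun s' hs' => ?_, ?_⟩
    · rcases h.valid with ⟨t, ht⟩ | ⟨τ, rfl⟩
      · obtain ⟨q, hq, hs⟩ := ih1.2.1 t ht
        refine ⟨q.ren (· + 3), ?_, ?_⟩
        · have := hq.rename hw.up (fun n B' hB' => tren_3 A Γ n B' hB')
          refine Eq.subst (motive := fun X => T P (trC3 (A :: Γ)) (q.ren (· + 3)) X) ?_ this
          simp only [cty, Tm.shift, tr_ren _ _ (show 1 < 2 by omega),
            tr_ren _ _ (show 0 < 2 by omega), bl_succ, cmp_ren, ren_ren, kap_add]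
        · rw [skel_ren]
          exact (hs.uren (· + 3)).ren fun n => by simp [rho, U.ren]; omega
      · obtain ⟨t, ht⟩ := hs'.sort_inv τ rfl
        obtain ⟨q, hq, hs⟩ := ih1.2.1 t (J.closed_ax h.wf ht)
        refine ⟨q.ren (· + 3), hq.rename hw.up (fun n B' hB' => tren_3 A Γ n B' hB'), ?_⟩
        rw [skel_ren]
        exact (hs.uren (· + 3)).ren fun n => by simp [rho, U.ren]; omega
    · rintro ⟨τ, e, hτ⟩ Δ f V R t hΔ hf hV hR
      cases B <;> simp [Tm.shift, ren] at e
      subst e
      obtain ⟨q, hq, hs⟩ := ih1.2.2 ⟨_, rfl, hτ⟩ Δ (fun n => f (n + 3)) V R t hΔ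
        (fun n B' hB' => by
          have := hf _ _ (tren_3 A Γ n B' hB')
          simp only [ren_ren] at this
          exact this) hV hR
      exact ⟨q, hq, hs.ren fun n => by simp [rho]; ring_nf⟩
  | @prod Γ A B a b c hA hB hr ih1 ih2 =>
    obtain ⟨qA, XA, xa, hqA, hXA, hsA⟩ := anyq H hA ih1
    obtain ⟨qB, XB, xb, hqB, hXB, hsB⟩ := anyq H hB ih2
    obtain ⟨X', x', hqB', hX'⟩ := close3 H hqB hXB
    have core : ∀ (Δ : List (Tm S)) (f : ℕ → ℕ) (V R : Tm S) (s : S),
        WF P False Δ → TRen (trC3 Γ) Δ f → D P Δ V (sort s) → D P Δ R (sort s) →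
        ∃ q, T P Δ q (cmp V R) ∧ Sim (rho f) (pi A B) q.skel := by
      intro Δ f V R s hΔ hf hV hR
      have hk : D P Δ (pi V R.shift) (sort s) := .prod hV (.wk hR hV) (H.refl s)
      obtain ⟨v, hv, hHA⟩ := gen H hV
      have hw := (WF.cons hk.wf hk).up
      have hR1 : D P _ _ (sort s) := J.wk hR hk
      have h1 := k_app hw (J.wk hv (D.up hk))
      obtain ⟨m2, hm2, j2, e2, g2⟩ := memT H (J.wk (hX'.rename hΔ hf) hk) hR1
        (J.wk (hqB'.rename hΔ.up hf) (D.up hk)) h1
      obtain ⟨m1, hm1, j1, e1, g1⟩ := memT H (J.wk (hXA.rename hΔ hf) hk) hR1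
        (J.wk (hqA.rename hΔ.up hf) (D.up hk)) hm2
      refine ⟨lam (pi V R.shift) m1, hm1.lam' H (D.up hR1), ?_⟩
      simp only [skel, e1, e2, Tm.shift, ren, skel_ren, U.ren, U.ren_ren]
      have hA' := hsA.uren f
      have hB' := hsB.uren (lr (lr (lr f)))
      have eenv : (fun n => (rho id n).ren (lr (lr (lr f)))) =
          scons (U.var 0) fun n => (rho f n).ren (· + 3) := by
        funext n
        cases n with
        | zero => rfl
        | succ n => simp [rho, U.ren, scons, Term.liftRen, Nat.mul_succ]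
      rw [eenv] at hB'
      have key := Sim.pi (v := v.skel.ren Nat.succ) j1 j2 g1 g2 hA' hB'
        (by rw [U.ren_eq_sub]; exact hHA.sub _)
      simp only [U.shift, U.ren_ren] at key
      convert key using 10 <;> first
        | rfl
        | (funext i; rcases i with _ | _ | _ | i <;> simp [Term.liftRen])
    refine ⟨ih1.1, fun s hs => ?_, fun _ => core⟩
    obtain ⟨t, ht⟩ := hs.sort_inv c rfl
    have hc : D P (trC3 Γ) (sort c) (sort t) := J.closed_ax ih1.1 ht
    exact core _ id _ _ t ih1.1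
      (fun n X hX => by
        have e : X.ren id = X := by rw [ren_eq_sub]; exact sub_var X
        rw [e]; exact hX) hc hc
  | @abs Γ A M B a b c hA hB hr hM ih1 ih2 ih3 =>
    refine ⟨ih1.1, fun s hs => ?_, fun ⟨τ, e, _⟩ => by cases e⟩
    obtain ⟨qA, XA, xa, hqA, hXA, hsA⟩ := anyq H hA ih1
    obtain ⟨qM, hqM, hsM⟩ := ih3.2.1 b hB
    have hw3 := wf3_cons H ih1.1 hA
    obtain ⟨hV, hR, -⟩ := comps_typed H hs ih1.1
    obtain ⟨hVB, hRB, -⟩ := comps_typed H hB hw3
    set V := (tr 0 (pi A B)).ren kap with hVd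
    set R := (tr 1 (pi A B)).ren kap with hRd
    set VB := (tr 0 B).ren kap with hVBd
    set RB := (tr 1 B).ren kap with hRBd
    have hk : D P (trC3 Γ) (pi V R.shift) (sort s) := .prod hV (.wk hR hV) (H.refl s)
    have hw := (WF.cons ih1.1 hk).up
    have hk2 : D P (trC3 (A :: Γ)) (pi VB RB.shift) (sort b) := .prod hVB (.wk hRB hVB) (H.refl b)
    have hw6 := WF.cons hw3 hk2
    have hRB1 : D P _ _ (sort b) := J.wk hRB hk2
    have hq' : T P (pi VB RB.shift :: trC3 (A :: Γ)) qM.shift
        (pi (pi VB RB.shift).shift RB.shift.shift) := by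
      have := J.wk hqM (D.up hk2)
      simp only [cty, hVBd, hRBd, Tm.cmp, Tm.shift, ren, ren_ren] at this ⊢
      exact this
    have hb1 := hq'.app' (J.look hw6.up (Look.here _ _))
    simp only [inst, shift_scons, sub_var] at hb1
    have hx := J.look hw6.up (Look.there _ (Look.here ((compA A).ren (lr2 kap))
      (blkC ((tr 1 A).ren kap) (trC3 Γ))))
    cases hw3 with
    | cons hw2 hC =>
      cases hw2 with
      | cons hw1 hI2 =>
        cases hw1 with
        | cons hw0 hI =>
          have hC1 := J.wk (J.wk hC hC) hk2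
          obtain ⟨m2, hm2, j2, e2, g2⟩ := memT H hC1 hRB1 hx hb1
          have hcm : D P (trC3 (A :: Γ)) (cmp VB RB) (sort b) := cmp_typed H hVB hRB
          obtain ⟨c1, hc1⟩ := H.prod hC hcm
          obtain ⟨c2, hc2⟩ := H.prod hI2 hc1
          have hl := (((hm2.lam' H (D.up hRB1)).lam' H (D.up hcm)).lam' H (D.up hc1)).lam' H
            (D.up hc2)
          have eT : pi ((tr 1 A).ren kap) (pi ((tr 1 A).ren kap).shift
              (pi ((compA A).ren (lr2 kap)) (cmp VB RB))) = V := by
            simp only [hVd, hVBd, hRBd, tr, if_pos, pi2_ren, pi2, ren, cmp_ren, compA, Tm.shift,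
              ren_ren]
            have e3 : lr (lr2 kap) ∘ Nat.succ = kap := kap_eq
            rw [e3]
            rfl
          have hl' : T P (trC3 Γ) _ V := eT ▸ hl
          have h1 := k_app hw (J.wk hl' (D.up hk))
          obtain ⟨m1, hm1, j1, e1, g1⟩ := memT H (J.wk hXA hk) (J.wk hR hk) (J.wk hqA (D.up hk)) h1
          refine ⟨lam (pi V R.shift) m1, ?_, ?_⟩
          · rw [cty, cmp_ren]; exact hm1.lam' H (D.up (J.wk hR hk))
          simp only [skel, e1, e2, Tm.shift, ren, skel_ren, U.ren, U.ren_ren]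
          have key := Sim.lam j1 (j2.ren (lr (lr (lr (lr Nat.succ))))) g1
            (by rw [U.ren_eq_sub]; exact g2.sub _) hsA (qB := qM.skel)
            (by rw [rho_cons]; exact hsM)
          simp only [U.shift] at key
          convert key using 14 <;> first
            | rfl
            | (funext i; rcases i with _ | _ | _ | i <;> simp [Term.liftRen])
            | (rename_i i; rcases i with _ | _ | _ | i <;> simp [Term.liftRen])
  | @apply Γ M N A B a b c hA hB hr hM hN hBN ih1 ih2 ih3 ih4 ih5 =>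
    refine ⟨ih1.1, fun s hs => ?_, ?_⟩
    swap
    · rintro ⟨τ, e, hτ⟩
      obtain ⟨t, ht⟩ := hBN.sort_inv τ e
      exact absurd ht (hτ t)
    obtain ⟨qM, hqM, hsM⟩ := ih3.2.1 c (J.prod hA hB hr)
    obtain ⟨qN, hqN, hsN⟩ := ih4.2.1 a hA
    obtain ⟨hV, hR, -⟩ := comps_typed H hs ih1.1
    obtain ⟨hVM, hRM, -⟩ := comps_typed H (J.prod hA hB hr) ih1.1
    set V := (tr 0 (B.inst N)).ren kap with hVd
    set R := (tr 1 (B.inst N)).ren kap with hRd
    set VM := (tr 0 (pi A B)).ren kap with hVMd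
    set RM := (tr 1 (pi A B)).ren kap with hRMd
    have hk : D P (trC3 Γ) (pi V R.shift) (sort s) := .prod hV (.wk hR hV) (H.refl s)
    have hw := WF.cons ih1.1 hk
    have hm : D P _ _ (sort c) := J.wk hVM hk
    have hw2 := (WF.cons hw hm).up
    have hf : TRen (trC Γ) (VM.shift :: pi V R.shift :: trC3 Γ) (fun i => kap i + 1 + 1) := by
      intro n X hX
      have := Look.there VM.shift (Look.there (pi V R.shift) (tren_kap Γ n X hX))
      simp only [Tm.shift, ren_ren] at this
      exact this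
    set f := fun i => kap i + 1 + 1 with hfd
    have hmv : T P (VM.shift :: pi V R.shift :: trC3 Γ) (var 0) ((tr 0 (pi A B)).ren f) := by
      have := J.look hw2 (Look.here VM.shift (pi V R.shift :: trC3 Γ))
      simp only [hVMd, Tm.shift, ren_ren] at this
      simp only [hVMd, Tm.shift, ren_ren]
      exact this
    simp only [tr, if_pos, pi2, ren] at hmv
    have t1 := hmv.app' (D.up (((pure_of_J H hN).2 1 (by omega))) |>.rename hw2 hf)
    simp only [inst, sub, Tm.shift, ren_ren, ren_sub, sub_ren, Function.comp_def] at t1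
    have eI : (tr 1 A).sub (fun x => scons ((tr 1 N).ren f) var (lr f (Nat.succ x))) =
        (tr 1 A).ren f := by rw [ren_eq_sub (tr 1 A)]; rfl
    rw [eI] at t1
    have t2 := t1.app' (D.up (((pure_of_J H hN).2 0 (by omega))) |>.rename hw2 hf)
    simp only [inst, sub, ren_sub, Tm.sub_sub, sub_ren, Function.comp_def] at t2
    have hqN2 : T P (VM.shift :: pi V R.shift :: trC3 Γ) qN.shift.shift
        ((cmp (tr 0 A) (tr 1 A)).ren f) := by
      have := J.wk (J.wk hqN (D.up hk)) (D.up hm)
      simp only [cty, Tm.shift, ren_ren] at this ⊢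
      exact this
    have eD : ∀ (X : Tm S) (τ : ℕ → Tm S), τ = (fun n => var (f n)) → X.sub τ = X.ren f := by
      rintro X τ rfl; exact (ren_eq_sub X f).symm
    have t2' : T P (VM.shift :: pi V R.shift :: trC3 Γ)
        (app (app (var 0) ((tr 1 N).ren f)) ((tr 0 N).ren f))
        (pi ((cmp (tr 0 A) (tr 1 A)).ren f) ((cmp (tr 0 (B.inst N)) (tr 1 (B.inst N))).ren f).shift) := by
      convert t2 using 1
      symm
      rw [inst, tr_sub _ _ (by omega), tr_sub _ _ (by omega), bsub_scons]
      simp only [cmp_sub, cmp_ren, Tm.shift, ren_ren, sub_ren, ren_sub]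
      congr 1
      · congr 1 <;> refine eD _ _ ?_ <;> funext i <;> rfl
      · congr 2 <;>
          (funext i; rcases i with _ | _ | i <;>
            simp [up, scons, sc2, sub, lr, Term.liftRen, ren, ren_ren, ren_sub, sub_ren, sub_var,
              Function.comp_def])
        all_goals (rw [ren_eq_sub])
    have t3 := t2'.app' hqN2
    simp only [inst, shift_scons, sub_var] at t3
    have hfeed : T P (VM.shift :: pi V R.shift :: trC3 Γ)
        (app (app (app (var 0) ((tr 1 N).ren f)) ((tr 0 N).ren f)) qN.shift.shift)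
        (pi (pi V R.shift).shift.shift R.shift.shift.shift) := by
      simp only [hVd, hRd, Tm.cmp, Tm.shift, ren, ren_ren] at t3 ⊢
      exact t3
    have happ := hfeed.app' (J.look hw2 (Look.there _ (Look.here _ _)))
    simp only [inst, shift_scons, sub_var] at happ
    obtain ⟨m2, hm2, j2, e2, g2⟩ :=
      jmpT H (J.wk (J.wk hR hk) hm) (J.wk (J.wk hRM hk) hm) happ
    have hlam := hm2.lam' H (D.up (J.wk (J.wk hRM hk) hm))
    have hqM3 : T P (pi V R.shift :: trC3 Γ) qM.shift
        (pi (pi VM.shift RM.shift.shift) RM.shift.shift) := by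
      have := J.wk hqM (D.up hk)
      simp only [cty, hVMd, hRMd, Tm.cmp, Tm.shift, ren, ren_ren] at this ⊢
      exact this
    have hcall := hqM3.app' hlam
    simp only [inst, shift_scons, sub_var] at hcall
    obtain ⟨m1, hm1, j1, e1, g1⟩ := jmpT H (J.wk hRM hk) (J.wk hR hk) hcall
    refine ⟨lam (pi V R.shift) m1, ?_, ?_⟩
    · rw [cty, cmp_ren]; exact hm1.lam' H (D.up (J.wk hR hk))
    simp only [skel, e1, e2, Tm.shift, ren, skel_ren, U.ren, U.ren_ren]
    have key := Sim.app j1 j2 ((tr 1 N).ren f).skel ((tr 0 N).ren f).skel g1 g2 hsM hsN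
    simp only [U.shift, U.ren_ren, skel_ren] at key
    exact key
  | @conv Γ M A B s hM hB he ih1 ih2 =>
    refine ⟨ih1.1, fun s' hs' => ?_, ?_⟩
    swap
    · rintro ⟨τ, rfl, hτ⟩
      obtain ⟨t, ht⟩ := hB.sort_inv τ rfl
      exact absurd ht (hτ t)
    obtain ⟨h0, h1, hc⟩ := comps_typed H hs' ih1.1
    by_cases hu : Untyped P A
    · obtain ⟨q, hq, hs⟩ := ih1.2.2 hu _ id _ _ s' ih1.1
        (fun n X hX => by
          have e : X.ren id = X := by rw [ren_eq_sub]; exact sub_var X
          rw [e]; exact hX) h0 h1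
      exact ⟨q, by rw [cty, cmp_ren]; exact hq, hs⟩
    · have : ∃ t, D P Γ A (sort t) := by
        rcases hM.valid with ht | ⟨τ, rfl⟩
        · exact ht
        · by_contra hcn
          exact hu ⟨τ, rfl, fun t ht => hcn ⟨t, J.closed_ax hM.wf ht⟩⟩
      obtain ⟨t, ht⟩ := this
      obtain ⟨q, hq, hs⟩ := ih1.2.1 t ht
      exact ⟨q, J.conv hq (D.up hc)
        ((Eqv.cmp (tr_eqv he (by omega)) (tr_eqv he (by omega))).ren kap), hs⟩

end Vale.Agent.P340
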