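import Vale.Agent.P340.Untyped

namespace Vale.Agent.P340

namespace U

theorem up_ren (f : ℕ → ℕ) : up (fun n => U.var (f n)) = fun n => U.var (Term.liftRen f n) := by
  funext n; cases n <;> rfl

theorem ren_eq_sub (M : U) : ∀ f, M.ren f = M.sub (fun n => U.var (f n)) := by
  induction M with
  | var n => intros; rfl
  | atom => intros; rfl
  | lam M ih => intros; simp [ren, sub, ih, up_ren]
  | app M N ih1 ih2 => intros; simp [ren, sub, ih1, ih2]

abbrev shift (M : U) : U := M.ren Nat.succ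

theorem shift_sub (M : U) (σ : ℕ → U) : M.shift.sub (up σ) = (M.sub σ).shift := by
  simp only [ren_sub, sub_ren]; rfl

theorem shift_inst (M N : U) : M.shift.sub (Tm.scons N U.var) = M := by
  simp only [ren_sub]; exact sub_var M

/-- Spines headed by the constant. -/
inductive HA : U → Prop
  | atom : HA U.atom
  | app {M} (N : U) : HA M → HA (U.app M N)

theorem HA.sub {M : U} (h : HA M) (σ : ℕ → U) : HA (M.sub σ) := by
  induction h with
  | atom => exact .atom
  | app N _ ih => exact .app _ ih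

theorem HA.ne {M : U} (h : HA M) : Ne M := by
  induction h with
  | atom => exact .atom
  | app N _ ih => exact .app _ ih

abbrev mem (j p r : U) : U := app (app j p) r
abbrev jmp (j r : U) : U := app j r
abbrev app3 (m a b e : U) : U := app (app (app m a) b) e

theorem Nm.inv_app {n} {f x : U} (h : Nm n (U.app f x)) (hf : Ne f) :
    ∃ m, m < n ∧ Nm m f ∧ Nm m x := by
  cases h with
  | app _ h1 h2 => exact ⟨_, Nat.lt_succ_self _, h1, h2⟩
  | wh hw _ => exact absurd hw (Ne.no_wh (.app _ hf))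

theorem Nm.inv_wh {n} {M M' : U} (h : Nm n M) (hw : Wh M M') : ∃ m, m < n ∧ Nm m M' := by
  cases h with
  | var i => cases hw
  | atom => cases hw
  | lam _ => cases hw
  | app hne _ _ => exact absurd hw (Ne.no_wh (.app _ hne))
  | wh hw' hk => rw [Wh.det hw' hw] at hk; exact ⟨_, Nat.lt_succ_self _, hk⟩

theorem Nm.inv_lam {n} {M : U} (h : Nm n (U.lam M)) : ∃ m, m < n ∧ Nm m M := by
  cases h with
  | lam h => exact ⟨_, Nat.lt_succ_self _, h⟩
  | wh hw _ => cases hw

theorem Nm.ren {n} {M : U} (h : Nm n M) : ∀ f, Nm n (M.ren f) := by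
  induction h with
  | var i => intro f; exact .var _
  | atom => intro f; exact .atom
  | lam _ ih => intro f; exact .lam (ih _)
  | app hne _ _ ih1 ih2 => intro f; exact .app (hne.ren f) (ih1 f) (ih2 f)
  | wh hw _ ih => intro f; exact .wh (hw.ren f) (ih f)

theorem Nm.inv_mem {n} {j p r : U} (h : Nm n (U.app (U.app j p) r)) (hj : HA j) :
    ∃ m, m < n ∧ Nm m p ∧ Nm m r := by
  obtain ⟨m, hm, h1, h2⟩ := h.inv_app (.app _ hj.ne)
  obtain ⟨k, hk, _, h3⟩ := h1.inv_app hj.ne
  exact ⟨m, hm, h3.mono (by omega), h2⟩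

theorem Nm.inv_jmp {n} {j r : U} (h : Nm n (U.app j r)) (hj : HA j) :
    ∃ m, m < n ∧ Nm m r := by
  obtain ⟨m, hm, _, h2⟩ := h.inv_app hj.ne
  exact ⟨m, hm, h2⟩

end U

namespace Tm
variable {S : Type}

/-- Strong normalisation as accessibility. -/
def SN (M : Tm S) : Prop := Acc (fun a b : Tm S => Step b a) M

theorem SN.step {M N : Tm S} (h : SN M) (hs : Step M N) : SN N := Acc.inv h hs

theorem SN.reds {M N : Tm S} (h : SN M) (hs : Relation.ReflTransGen Step M N) : SN N := by
  induction hs with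
  | refl => exact h
  | tail _ hs ih => exact ih.step hs

theorem SN.var (n : ℕ) : SN (Tm.var n : Tm S) := ⟨_, fun _ h => by cases h⟩
theorem SN.sort (s : S) : SN (Tm.sort s) := ⟨_, fun _ h => by cases h⟩

theorem SN.pi {A B : Tm S} (hA : SN A) (hB : SN B) : SN (Tm.pi A B) := by
  induction hA generalizing B with
  | intro A hA' ihA =>
    induction hB with
    | intro B hB' ihB =>
      refine ⟨_, fun P hP => ?_⟩
      cases hP with
      | piA _ h => exact ihA _ h ⟨_, hB'⟩
      | piB _ h => exact ihB _ h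

theorem SN.lam {A B : Tm S} (hA : SN A) (hB : SN B) : SN (Tm.lam A B) := by
  induction hA generalizing B with
  | intro A hA' ihA =>
    induction hB with
    | intro B hB' ihB =>
      refine ⟨_, fun P hP => ?_⟩
      cases hP with
      | lamA _ h => exact ihA _ h ⟨_, hB'⟩
      | lamM _ h => exact ihB _ h

/-- Heads that can never become an abstraction. -/
inductive Rigid : Tm S → Prop
  | var (n) : Rigid (Tm.var n)
  | sort (s) : Rigid (Tm.sort s)
  | pi (A B) : Rigid (Tm.pi A B)
  | app {M} (N) : Rigid M → Rigid (Tm.app M N)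

theorem Rigid.step {M N : Tm S} (h : Rigid M) (hs : Step M N) : Rigid N := by
  induction hs with
  | redex A M N => cases h with | app _ h => cases h
  | appL N _ ih => cases h with | app _ h => exact .app _ (ih h)
  | appR M _ => cases h with | app _ h => exact .app _ h
  | lamA _ _ => cases h
  | lamM _ _ => cases h
  | piA B _ => exact .pi _ _
  | piB A _ => exact .pi _ _

theorem SN.app_rigid {M N : Tm S} (hM : SN M) (hN : SN N) (hr : Rigid M) :
    SN (Tm.app M N) := by
  induction hM generalizing N with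
  | intro M hM' ihM =>
    induction hN with
    | intro N hN' ihN =>
      refine ⟨_, fun P hP => ?_⟩
      cases hP with
      | redex A B _ => cases hr
      | appL _ h => exact ihM _ h ⟨_, hN'⟩ (hr.step h)
      | appR _ h => exact ihN _ h

def apps : Tm S → List (Tm S) → Tm S
  | M, [] => M
  | M, a :: l => apps (Tm.app M a) l

theorem apps_rigid : ∀ (l : List (Tm S)) {M : Tm S}, SN M → Rigid M → (∀ a ∈ l, SN a) →
    SN (apps M l)
  | [], _, h, _, _ => h
  | a :: l, _, h, hr, hl =>
    apps_rigid l (h.app_rigid (hl a (by simp)) hr) (.app _ hr)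
      fun b hb => hl b (List.mem_cons_of_mem _ hb)

theorem apps_step_head : ∀ (l : List (Tm S)) {M M' : Tm S}, Step M M' →
    Step (apps M l) (apps M' l)
  | [], _, _, h => h
  | a :: l, _, _, h => apps_step_head l (.appL a h)

theorem apps_reds_head (l : List (Tm S)) {M M' : Tm S} (h : Relation.ReflTransGen Step M M') :
    Relation.ReflTransGen Step (apps M l) (apps M' l) :=
  h.lift (fun x => apps x l) fun _ _ h => apps_step_head l h

theorem apps_inv : ∀ (l : List (Tm S)) (M : Tm S) {P : Tm S}, Step (apps M l) P →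
    (∃ M', Step M M' ∧ P = apps M' l) ∨ (∃ A B, M = Tm.lam A B ∧ l ≠ []) ∨
      ∃ l', P = apps M l' ∧ ∀ M'', Step (apps M'' l) (apps M'' l')
  | [], M, P, h => Or.inl ⟨P, h, rfl⟩
  | a :: l, M, P, h => by
    rcases apps_inv l (Tm.app M a) h with ⟨M', h1, rfl⟩ | ⟨A, B, e, _⟩ | ⟨l', rfl, h2⟩
    · cases h1 with
      | redex A B _ => exact Or.inr (Or.inl ⟨A, B, rfl, by simp⟩)
      | appL _ hs => exact Or.inl ⟨_, hs, rfl⟩
      | appR _ hs =>
        exact Or.inr (Or.inr ⟨_ :: l, rfl, fun M'' => apps_step_head l (.appR _ hs)⟩)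
    · cases e
    · exact Or.inr (Or.inr ⟨a :: l', rfl, fun M'' => h2 _⟩)

theorem reds_sub_arg : ∀ (B : Tm S) (σ τ : ℕ → Tm S),
    (∀ n, Relation.ReflTransGen Step (σ n) (τ n)) →
    Relation.ReflTransGen Step (B.sub σ) (B.sub τ) := by
  have renStep : ∀ {a b : Tm S}, Step a b → Step (a.ren Nat.succ) (b.ren Nat.succ) := by
    intro a b h; simpa [ren_eq_sub] using h.sub _
  have upRel : ∀ σ τ : ℕ → Tm S, (∀ n, Relation.ReflTransGen Step (σ n) (τ n)) →
      ∀ n, Relation.ReflTransGen Step (up σ n) (up τ n) := by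
    intro σ τ h n
    cases n with
    | zero => exact .refl
    | succ n => exact (h n).lift (Tm.ren Nat.succ) fun _ _ h => renStep h
  intro B
  induction B with
  | var n => intro σ τ h; exact h n
  | con c => intros; exact .refl
  | sort s => intros; exact .refl
  | app M N ih1 ih2 =>
    intro σ τ h
    exact ((ih1 σ τ h).lift (fun x => Tm.app x _) fun _ _ h => .appL _ h).trans
      ((ih2 σ τ h).lift (fun x => Tm.app _ x) fun _ _ h => .appR _ h)
  | lam A M ih1 ih2 =>
    intro σ τ h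
    exact ((ih1 σ τ h).lift (fun x => Tm.lam x _) fun _ _ h => .lamA _ h).trans
      ((ih2 _ _ (upRel σ τ h)).lift (fun x => Tm.lam _ x) fun _ _ h => .lamM _ h)
  | pi A M ih1 ih2 =>
    intro σ τ h
    exact ((ih1 σ τ h).lift (fun x => Tm.pi x _) fun _ _ h => .piA _ h).trans
      ((ih2 _ _ (upRel σ τ h)).lift (fun x => Tm.pi _ x) fun _ _ h => .piB _ h)

theorem SN.redex {N : Tm S} (hN : SN N) : ∀ {A : Tm S}, SN A → ∀ {T : Tm S}, SN T →
    ∀ B l, T = apps (B.inst N) l → SN (apps (Tm.app (Tm.lam A B) N) l) := by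
  induction hN with
  | intro N hN' ihN =>
    intro A hA
    induction hA with
    | intro A hA' ihA =>
      intro T hT
      induction hT with
      | intro T hT' ihT =>
        intro B l e
        refine ⟨_, fun P hP => ?_⟩
        rcases apps_inv l _ hP with ⟨M', h1, rfl⟩ | ⟨_, _, e', _⟩ | ⟨l', rfl, h2⟩
        · cases h1 with
          | redex _ _ _ => exact e ▸ ⟨_, hT'⟩
          | appL _ h =>
            cases h with
            | lamA _ h => exact ihA _ h ⟨_, hT'⟩ B l e
            | @lamM _ _ B' h =>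
              exact ihT _ (e ▸ apps_step_head l (h.sub _)) B' l rfl
          | @appR _ _ N' h =>
            have hred : Relation.ReflTransGen Step (apps (B.inst N) l) (apps (B.inst N') l) := by
              refine apps_reds_head l (reds_sub_arg B _ _ fun n => ?_)
              cases n with
              | zero => exact .single h
              | succ n => exact .refl
            exact ihN _ h ⟨_, hA'⟩ (SN.reds (M := apps (B.inst N) l) (e ▸ ⟨_, hT'⟩) hred) B l rfl
        · cases e'
        · exact ihT _ (e ▸ h2 _) B l' rfl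

theorem SN.of_sub {M : Tm S} (σ : ℕ → Tm S) {T : Tm S} (h : SN T) : T = M.sub σ → SN M := by
  induction h generalizing M with
  | intro T _ ih => intro e; exact ⟨_, fun P hP => ih _ (e ▸ hP.sub σ) rfl⟩

theorem SN.of_app {M N T : Tm S} (h : SN T) : T = Tm.app M N → SN M ∧ SN N := by
  induction h generalizing M N with
  | intro T _ ih =>
    intro e
    subst e
    exact ⟨⟨_, fun P hP => (ih _ (Step.appL N hP) rfl).1⟩,
      ⟨_, fun P hP => (ih _ (Step.appR M hP) rfl).2⟩⟩

end Tm

open Tm (scons)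
open U (HA mem jmp app3)

variable {S : Type}

/-- `Sim ρ M q`: `q` has the shape of the translated skeleton of `M`. -/
inductive Sim : (ℕ → U) → Tm S → U → Prop
  | var (ρ : ℕ → U) (n) : Sim ρ (Tm.var n) (ρ n)
  | sort (ρ : ℕ → U) (s) {v} : HA v → Sim ρ (Tm.sort s) (U.lam (U.app (U.var 0) v))
  | pi {ρ A B qA qB v} (j1 j2 : U) : HA j1 → HA j2 → Sim ρ A qA →
      Sim (scons (U.var 0) fun n => (ρ n).ren (· + 3)) B qB → HA v →
      Sim ρ (Tm.pi A B)
        (U.lam (mem j1 qA.shift (mem j2
          (U.lam (U.lam (U.lam (qB.ren fun i => if i < 3 then i else i + 1))))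
          (U.app (U.var 0) v))))
  | lam {ρ A B qA qB} (j1 j2 : U) : HA j1 → HA j2 → Sim ρ A qA →
      Sim (scons (U.var 0) fun n => (ρ n).ren (· + 3)) B qB →
      Sim ρ (Tm.lam A B) (U.lam (mem j1 qA.shift (U.app (U.var 0)
        (U.lam (U.lam (U.lam (U.lam (mem j2 (U.var 1)
          (U.app (qB.ren fun i => if i < 3 then i + 1 else i + 2) (U.var 0))))))))))
  | app {ρ M N qM qN} (j1 j2 a b : U) : HA j1 → HA j2 → Sim ρ M qM → Sim ρ N qN →
      Sim ρ (Tm.app M N) (U.lam (jmp j1 (U.app qM.shift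
        (U.lam (jmp j2 (U.app (app3 (U.var 0) a b qN.shift.shift) (U.var 1)))))))

theorem env_sub (ρ : ℕ → U) (σ : ℕ → U) :
    (fun n => (scons (U.var 0) (fun n => (ρ n).ren (· + 3)) n).sub (U.up (U.up (U.up σ)))) =
      scons (U.var 0) fun n => ((ρ n).sub σ).ren (· + 3) := by
  funext n
  cases n with
  | zero => rfl
  | succ n =>
    simp only [scons, U.ren_sub, U.sub_ren]
    congr 1; funext i
    simp only [Function.comp_apply, U.up, U.ren_ren]; rfl

theorem Sim.sub {ρ : ℕ → U} {M : Tm S} {q : U} (h : Sim ρ M q) :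
    ∀ σ, Sim (fun n => (ρ n).sub σ) M (q.sub σ) := by
  induction h with
  | var ρ n => intro σ; exact .var _ n
  | sort ρ s hbd => intro σ; exact .sort _ s (hbd.sub _)
  | @pi ρ A B qA qB v j1 j2 g1 g2 _ _ hv ih1 ih2 =>
    intro σ
    have h2 := ih2 (U.up (U.up (U.up σ)))
    rw [env_sub] at h2
    have key := Sim.pi (j1.sub (U.up σ)) (j2.sub (U.up σ)) (g1.sub _) (g2.sub _) (ih1 σ) h2 (hv.sub (U.up σ))
    have e2 : (qB.sub (U.up (U.up (U.up σ)))).ren (fun i => if i < 3 then i else i + 1) =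
        (qB.ren fun i => if i < 3 then i else i + 1).sub (U.up (U.up (U.up (U.up σ)))) := by
      simp only [U.ren_sub, U.sub_ren]
      congr 1; funext i
      rcases i with _ | _ | _ | i
      all_goals try rfl
      simp only [U.up, U.ren_ren, Function.comp_apply]
      rw [if_neg (by omega)]
      simp only [U.up, U.ren_ren]
      congr 1
    rw [e2] at key
    simpa only [U.sub, mem, U.shift_sub, U.up] using key
  | @lam ρ A B qA qB j1 j2 g1 g2 _ _ ih1 ih2 =>
    intro σ
    have h2 := ih2 (U.up (U.up (U.up σ)))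
    rw [env_sub] at h2
    have key := Sim.lam (j1.sub (U.up σ))
      (j2.sub (U.up (U.up (U.up (U.up (U.up σ)))))) (g1.sub _) (g2.sub _) (ih1 σ) h2
    have e2 : (qB.sub (U.up (U.up (U.up σ)))).ren
          (fun i => if i < 3 then i + 1 else i + 2) =
        (qB.ren fun i => if i < 3 then i + 1 else i + 2).sub
          (U.up (U.up (U.up (U.up (U.up σ))))) := by
      simp only [U.ren_sub, U.sub_ren]
      congr 1; funext i
      rcases i with _ | _ | _ | i
      all_goals try rfl
      simp only [U.up, U.ren_ren, Function.comp_apply]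
      rw [if_neg (by omega)]
      simp only [U.up, U.ren_ren]
      congr 1
    rw [e2] at key
    simpa only [U.sub, mem, U.shift_sub, U.up, U.ren] using key
  | @app ρ M N qM qN j1 j2 a b g1 g2 _ _ ih1 ih2 =>
    intro σ
    have := Sim.app (j1.sub (U.up σ)) (j2.sub (U.up (U.up σ))) (a.sub (U.up (U.up σ)))
      (b.sub (U.up (U.up σ))) (g1.sub _) (g2.sub _) (ih1 σ) (ih2 σ)
    simpa only [U.sub, jmp, app3, U.shift_sub, U.up, U.ren] using this

theorem Sim.uren {ρ : ℕ → U} {M : Tm S} {q : U} (h : Sim ρ M q) (f : ℕ → ℕ) :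
    Sim (fun n => (ρ n).ren f) M (q.ren f) := by
  simpa only [U.ren_eq_sub] using h.sub _

theorem Sim.ren {ρ' : ℕ → U} {M : Tm S} {q : U} (h : Sim ρ' M q) :
    ∀ {ρ : ℕ → U} {f}, (∀ n, ρ (f n) = ρ' n) → Sim ρ (M.ren f) q := by
  induction h with
  | var ρ' n => intro ρ f hf; rw [← hf n]; exact .var _ _
  | sort ρ' s hbd => intro ρ f _; exact .sort _ s hbd
  | pi j1 j2 g1 g2 _ _ hv ih1 ih2 =>
    intro ρ f hf
    exact .pi j1 j2 g1 g2 (ih1 hf) (ih2 fun n => by
      cases n with
      | zero => rfl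
      | succ n => exact congrArg (U.ren (· + 3)) (hf n)) hv
  | lam j1 j2 g1 g2 _ _ ih1 ih2 =>
    intro ρ f hf
    exact .lam j1 j2 g1 g2 (ih1 hf) (ih2 fun n => by
      cases n with
      | zero => rfl
      | succ n => exact congrArg (U.ren (· + 3)) (hf n))
  | app j1 j2 a b g1 g2 _ _ ih1 ih2 => intro ρ f hf; exact .app j1 j2 a b g1 g2 (ih1 hf) (ih2 hf)

theorem Sim.tsub {ρ' : ℕ → U} {M : Tm S} {q : U} (h : Sim ρ' M q) :
    ∀ {ρ : ℕ → U} {τ : ℕ → Tm S}, (∀ n, Sim ρ (τ n) (ρ' n)) → Sim ρ (M.sub τ) q := by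
  induction h with
  | var ρ' n => intro ρ τ hτ; exact hτ n
  | sort ρ' s hbd => intro ρ τ _; exact .sort _ s hbd
  | pi j1 j2 g1 g2 _ _ hv ih1 ih2 =>
    intro ρ τ hτ
    refine .pi j1 j2 g1 g2 (ih1 hτ) (ih2 fun n => ?_) hv
    cases n with
    | zero => exact .var (scons (U.var 0) fun n => (ρ n).ren (· + 3)) 0
    | succ n => exact ((hτ n).uren (· + 3)).ren fun _ => rfl
  | lam j1 j2 g1 g2 _ _ ih1 ih2 =>
    intro ρ τ hτ
    refine .lam j1 j2 g1 g2 (ih1 hτ) (ih2 fun n => ?_)
    cases n with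
    | zero => exact .var (scons (U.var 0) fun n => (ρ n).ren (· + 3)) 0
    | succ n => exact ((hτ n).uren (· + 3)).ren fun _ => rfl
  | app j1 j2 a b g1 g2 _ _ ih1 ih2 => intro ρ τ hτ; exact .app j1 j2 a b g1 g2 (ih1 hτ) (ih2 hτ)

/-- Continuations carrying pending arguments. -/
inductive Stack (ρ : ℕ → U) : List (Tm S) → U → Prop
  | nil (i) : Stack ρ [] (U.var i)
  | cons {N qN rest K} (j a b : U) : HA j → Sim ρ N qN → Stack ρ rest K →
      Stack ρ (N :: rest)
        (U.lam (jmp j (U.app (app3 (U.var 0) a b qN.shift) K.shift)))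

theorem Stack.uren {ρ : ℕ → U} {l : List (Tm S)} {K : U} (h : Stack ρ l K) (f : ℕ → ℕ) :
    Stack (fun n => (ρ n).ren f) l (K.ren f) := by
  induction h with
  | nil i => exact .nil _
  | @cons N qN rest K j a b hj hN _ ih =>
    have := Stack.cons (j.ren (Term.liftRen f)) (a.ren (Term.liftRen f)) (b.ren (Term.liftRen f))
      (U.ren_eq_sub j _ ▸ hj.sub _) (hN.uren f) ih
    simpa only [U.ren, jmp, app3, U.shift, U.ren_ren, Term.liftRen, Function.comp_def] using this

def Good (ρ : ℕ → U) : Prop := ∀ n, U.Ne (ρ n)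

theorem Good.ren {ρ : ℕ → U} (h : Good ρ) (f : ℕ → ℕ) : Good fun n => (ρ n).ren f :=
  fun n => (h n).ren f

theorem Good.cons {ρ : ℕ → U} (h : Good ρ) {e : U} (he : U.Ne e) : Good (scons e ρ)
  | 0 => he
  | n + 1 => h n

/-- Statement proved by induction on the size of the leftmost normalisation. -/
def PB (S : Type) (n : ℕ) : Prop :=
  ∀ (ρ : ℕ → U) (M : Tm S) (q : U), Good ρ → Sim ρ M q → U.Nm n q → Tm.SN M

def PA (S : Type) (n : ℕ) : Prop :=
  ∀ (ρ : ℕ → U) (M : Tm S) (q : U) (l : List (Tm S)) (K : U), Good ρ → Sim ρ M q →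
    Stack ρ l K → U.Nm n (U.app q K) → Tm.SN (Tm.apps M l)

theorem stack_sn {n : ℕ} (hB : ∀ m, m < n → PB S m) {ρ : ℕ → U} {l : List (Tm S)} {K : U}
    (hst : Stack ρ l K) : ∀ {m}, m < n → Good ρ → U.Nm m K → ∀ a ∈ l, Tm.SN a := by
  induction l generalizing ρ K with
  | nil => intros; simp at *
  | cons N rest ih =>
    intro m hm hρ hK x hx
    cases hst with
    | @cons _ qN _ K' j a b hj hN hrest =>
      obtain ⟨m1, hm1, h1⟩ := hK.inv_lam
      obtain ⟨m2, hm2, h2⟩ := h1.inv_jmp hj
      obtain ⟨m3, hm3, h3, h4⟩ := h2.inv_app (.app _ (.app _ (.app _ (.var 0))))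
      obtain ⟨m4, hm4, _, h5⟩ := h3.inv_app (.app _ (.app _ (.var 0)))
      rcases List.mem_cons.1 hx with rfl | hx
      · exact hB m4 (by omega) _ _ _ (hρ.ren _) (hN.uren _) h5
      · exact ih (hrest.uren _) (by omega) (hρ.ren _) h4 x hx

theorem feed_sn {n : ℕ} (hB : ∀ m, m < n → PB S m) {ρ : ℕ → U} {l : List (Tm S)} {K v : U}
    (hv : HA v) (hst : Stack ρ l K) {m} (hm : m < n) (hρ : Good ρ)
    (hK : U.Nm m (U.app K v)) : ∀ a ∈ l, Tm.SN a := by
  cases hst with
  | nil => simp
  | @cons N qN rest K' j a b hj hN hrest =>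
    obtain ⟨m1, hm1, h1⟩ := hK.inv_wh (.redex _ _)
    simp only [U.inst, U.sub, U.shift_inst, scons] at h1
    obtain ⟨m2, hm2, h2⟩ := h1.inv_jmp (hj.sub _)
    obtain ⟨m4, hm4, h4, h5⟩ := h2.inv_app (.app _ (.app _ (.app _ hv.ne)))
    obtain ⟨m5, hm5, _, h6⟩ := h4.inv_app (.app _ (.app _ hv.ne))
    intro x hx
    rcases List.mem_cons.1 hx with rfl | hx
    · exact hB m5 (by omega) _ _ _ hρ hN h6
    · exact stack_sn hB hrest (show m4 < n by omega) hρ h5 x hx

theorem step_PA {n : ℕ} (hB : ∀ m, m < n → PB S m) (hA : ∀ m, m < n → PA S m) : PA S n := by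
  intro ρ M q l K hρ hsim hst h
  cases hsim with
  | var _ i =>
    obtain ⟨m, hm, _, h2⟩ := h.inv_app (hρ i)
    exact Tm.apps_rigid l (Tm.SN.var i) (.var i) (stack_sn hB hst hm hρ h2)
  | @sort _ s v hv =>
    obtain ⟨m, hm, h1⟩ := h.inv_wh (.redex _ _)
    simp only [U.inst, U.sub, scons] at h1
    exact Tm.apps_rigid l (Tm.SN.sort s) (.sort s) (feed_sn hB (hv.sub _) hst hm hρ h1)
  | @pi _ A B qA qB v j1 j2 g1 g2 hA' hB' hv =>
    obtain ⟨m, hm, h1⟩ := h.inv_wh (.redex _ _)
    simp only [U.inst, U.sub, U.shift_inst, scons, U.up, U.ren, Term.liftRen] at h1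
    obtain ⟨m1, hm1, h2, h3⟩ := h1.inv_mem (g1.sub _)
    obtain ⟨m2, hm2, h4, h5⟩ := h3.inv_mem (g2.sub _)
    have eq : (qB.ren fun i => if i < 3 then i else i + 1).sub
        (U.up (U.up (U.up (scons K U.var)))) = qB := by
      rw [U.ren_sub]
      conv_rhs => rw [← U.sub_var qB]
      congr 1; funext i
      rcases i with _ | _ | _ | i
      all_goals rfl
    rw [eq] at h4
    obtain ⟨k1, hk1, h6⟩ := h4.inv_lam
    obtain ⟨k2, hk2, h7⟩ := h6.inv_lam
    obtain ⟨k3, hk3, h8⟩ := h7.inv_lam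
    refine Tm.apps_rigid l (Tm.SN.pi (hB m1 (by omega) _ _ _ hρ hA' h2)
      (hB k3 (by omega) _ _ _ ((hρ.ren _).cons (.var 0)) hB' h8)) (.pi _ _)
      (feed_sn hB (hv.sub _) hst (show m2 < n by omega) hρ h5)
  | @lam _ A B qA qB j1 j2 g1 g2 hA' hB' =>
    obtain ⟨m, hm, h1⟩ := h.inv_wh (.redex _ _)
    simp only [U.inst, U.sub, U.shift_inst, scons, U.up, U.ren, Term.liftRen] at h1
    obtain ⟨m1, hm1, h2, h3⟩ := h1.inv_mem (g1.sub _)
    have hSA := hB m1 (by omega) _ _ _ hρ hA' h2
    have eq : (qB.ren fun i => if i < 3 then i + 1 else i + 2).sub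
        (U.up (U.up (U.up (U.up (scons K U.var))))) = qB.shift := by
      rw [U.ren_sub, U.shift, U.ren_eq_sub]
      congr 1; funext i
      rcases i with _ | _ | _ | i <;>
        simp [U.up, U.ren, Term.liftRen, scons, Function.comp_apply] <;> rfl
    rw [eq] at h3
    cases hst with
    | nil i =>
      obtain ⟨k0, hk0, _, h4⟩ := h3.inv_app (.var i)
      obtain ⟨k1, hk1, h5⟩ := h4.inv_lam
      obtain ⟨k2, hk2, h6⟩ := h5.inv_lam
      obtain ⟨k3, hk3, h7⟩ := h6.inv_lam
      obtain ⟨k6, hk6, h10⟩ := h7.inv_lam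
      obtain ⟨k7, hk7, _, h11⟩ := h10.inv_mem (g2.sub _)
      exact Tm.SN.lam hSA (hA k7 (by omega) _ _ _ [] _
        (fun i => by cases i with
          | zero => exact .var _
          | succ i => exact ((hρ i).ren _).ren _)
        (hB'.uren Nat.succ) (.nil 0) h11)
    | @cons N qN rest K' j a b hj hN hrest =>
      obtain ⟨k0, hk0, h4⟩ := h3.inv_wh (.redex _ _)
      simp only [U.inst, U.sub, U.shift_inst, scons] at h4
      obtain ⟨k1, hk1, h5⟩ := h4.inv_jmp (hj.sub _)
      obtain ⟨k2, hk2, h6⟩ := h5.inv_wh (.appL _ (.appL _ (.appL _ (.redex _ _))))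
      simp only [U.inst, U.sub, U.up, scons, U.ren, Term.liftRen] at h6
      obtain ⟨k5, hk5, h9⟩ := h6.inv_wh (.appL _ (.appL _ (.redex _ _)))
      simp only [U.inst, U.sub, U.up, scons, U.ren, Term.liftRen] at h9
      obtain ⟨k6, hk6, h10⟩ := h9.inv_wh (.appL _ (.redex _ _))
      simp only [U.inst, U.sub, U.up, scons, U.ren, Term.liftRen] at h10
      obtain ⟨k7, hk7, h11⟩ := h10.inv_wh (.redex _ _)
      simp only [U.inst, U.sub, U.up, scons, U.ren, Term.liftRen, U.shift_inst] at h11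
      obtain ⟨k8, hk8, h12, h13⟩ := h11.inv_mem ((((((g2.sub _).sub _).sub _).sub _).sub _))
      simp only [U.shift, U.sub_sub, U.ren_sub, Function.comp_def, U.up, U.ren, U.sub, scons,
        U.sub_var, Term.liftRen] at h12 h13
      revert h13
      generalize hσ : (fun n : ℕ => _) = σ
      intro h13
      have hs := hB'.sub σ
      have he : (fun i => (scons (U.var 0) (fun n => (ρ n).ren (· + 3)) i).sub σ) =
          scons qN ρ := by
        funext i
        subst hσ
        cases i with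
        | zero => simp [scons, U.sub, U.up, U.ren, Term.liftRen, U.ren_sub, U.sub_var, Function.comp_def]
        | succ i =>
          simp only [scons, U.ren_sub]
          conv_rhs => rw [← U.sub_var (ρ i)]
          congr 1
      rw [he] at hs
      have hs2 : Sim ρ (B.inst N) (qB.sub σ) := hs.tsub fun i => by
        cases i with
        | zero => exact hN
        | succ i => exact .var ρ i
      exact Tm.SN.redex (hB k8 (by omega) _ _ _ hρ hN h12) hSA
        (hA k8 (by omega) _ _ _ _ _ hρ hs2 hrest h13) B rest rfl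
  | @app _ M N qM qN j1 j2 a b g1 g2 hM hN =>
    obtain ⟨m, hm, h1⟩ := h.inv_wh (.redex _ _)
    simp only [U.inst, U.sub, U.up, scons, U.shift_sub, U.shift_inst] at h1
    obtain ⟨m1, hm1, h2⟩ := h1.inv_jmp (g1.sub _)
    exact hA m1 (by omega) _ M _ (N :: l) _ hρ hM (.cons _ _ _ (g2.sub _) hN hst) h2

theorem all_P : ∀ n, PA S n ∧ PB S n := by
  intro n
  induction n using Nat.strong_induction_on with
  | _ n ih =>
    have hA : PA S n := step_PA (fun m hm => (ih m hm).2) fun m hm => (ih m hm).1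
    refine ⟨hA, fun ρ M q hρ hsim h => ?_⟩
    have go : ∀ body, q = U.lam body → Tm.SN M := by
      rintro body rfl
      obtain ⟨m, hm, h1⟩ := h.inv_lam
      have h2 : U.Nm n (U.app (U.lam body) (U.var 0)) := by
        have hb : U.Nm m (body.inst (U.var 0)) := by
          have := h1.ren (fun i => i - 1)
          rw [U.ren_eq_sub] at this
          unfold U.inst
          convert this using 3
          rename_i i; cases i <;> rfl
        exact (U.Nm.wh (.redex _ _) hb).mono (by omega)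
      exact hA ρ M _ [] _ hρ hsim (.nil 0) h2
    cases hsim with
    | var _ i => exact Tm.SN.var i
    | sort _ s _ => exact Tm.SN.sort s
    | pi => exact go _ rfl
    | lam => exact go _ rfl
    | app => exact go _ rfl

theorem sn_of_sim {ρ : ℕ → U} {M : Tm S} {q : U} (hρ : Good ρ) (h : Sim ρ M q)
    (hn : ∃ n, U.Nm n q) : Tm.SN M := by
  obtain ⟨n, hn⟩ := hn; exact (all_P n).2 _ _ _ hρ h hn

end Vale.Agent.P340
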