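import Vale.Agent.P340.SimSN
import Vale.Agent.P340.Judg

namespace Vale.Agent.P340

variable {S : Type}

namespace Tm

/-- Untyped skeleton: annotations and constant names are forgotten. -/
def skel : Tm S → U
  | var n => U.var n
  | con _ => U.atom
  | sort _ => U.atom
  | app M N => U.app M.skel N.skel
  | lam _ M => U.lam M.skel
  | pi A B => U.app (U.app U.atom A.skel) (U.lam B.skel)

theorem skel_ren : ∀ (M : Tm S) (f : ℕ → ℕ), (M.ren f).skel = M.skel.ren f := by
  intro M
  induction M with
  | var n => intros; rfl
  | con c => intros; rfl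
  | sort s => intros; rfl
  | app M N ih1 ih2 => intros; simp [ren, skel, U.ren, ih1, ih2]
  | lam A M _ ih2 => intros; simp [ren, skel, U.ren, ih2]
  | pi A B ih1 ih2 => intros; simp [ren, skel, U.ren, ih1, ih2]

theorem skel_up (σ : ℕ → Tm S) : (fun n => (up σ n).skel) = U.up fun n => (σ n).skel := by
  funext n; cases n with
  | zero => rfl
  | succ n => simp [up, U.up, skel_ren]

theorem skel_sub : ∀ (M : Tm S) (σ : ℕ → Tm S),
    (M.sub σ).skel = M.skel.sub fun n => (σ n).skel := by
  intro M
  induction M with
  | var n => intros; rfl
  | con c => intros; rfl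
  | sort s => intros; rfl
  | app M N ih1 ih2 => intros; simp [sub, skel, U.sub, ih1, ih2]
  | lam A M _ ih2 => intros; simp [sub, skel, U.sub, ih2, skel_up]
  | pi A B ih1 ih2 => intros; simp [sub, skel, U.sub, ih1, ih2, skel_up]

theorem skel_step {M N : Tm S} (h : Step M N) :
    Relation.ReflTransGen U.Step M.skel N.skel := by
  induction h with
  | redex A M N =>
    refine .single ?_
    have e : (M.inst N).skel = U.inst M.skel N.skel := by
      rw [inst, skel_sub, U.inst]; congr 1; funext n; cases n <;> rfl
    rw [e]; exact .redex _ _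
  | appL N _ ih => exact ih.lift (fun x => U.app x _) fun _ _ h => .appL _ h
  | appR M _ ih => exact ih.lift (fun x => U.app _ x) fun _ _ h => .appR _ h
  | lamA M _ _ => exact .refl
  | lamM A _ ih => exact ih.lift U.lam fun _ _ h => .lam h
  | piA B _ ih =>
    exact ih.lift (fun x => U.app (U.app U.atom x) _) fun _ _ h => .appL _ (.appR _ h)
  | piB A _ ih => exact ih.lift (fun x => U.app _ (U.lam x)) fun _ _ h => .appR _ (.lam h)

theorem skel_reds {M N : Tm S} (h : Relation.ReflTransGen Step M N) :
    Relation.ReflTransGen U.Step M.skel N.skel := by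
  induction h with
  | refl => exact .refl
  | tail _ h ih => exact ih.trans (skel_step h)

theorem skel_normal : ∀ (M : Tm S), (∀ N, ¬ Step M N) → ∀ Q, ¬ U.Step M.skel Q := by
  intro M
  induction M with
  | var n => intro _ Q h; cases h
  | con c => intro _ Q h; cases h
  | sort s => intro _ Q h; cases h
  | app M N ih1 ih2 =>
    intro hn Q h
    simp only [skel] at h
    generalize hm : M.skel = m at h
    cases h with
    | redex b _ =>
      cases M with
      | lam A b => exact hn _ (.redex _ _ _)
      | var _ => cases hm
      | con _ => cases hm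
      | sort _ => cases hm
      | app _ _ => cases hm
      | pi _ _ => cases hm
    | appL _ h => exact ih1 (fun X hX => hn _ (.appL _ hX)) _ (hm ▸ h)
    | appR _ h => exact ih2 (fun X hX => hn _ (.appR _ hX)) _ h
  | lam A M _ ih2 =>
    intro hn Q h
    cases h with
    | lam h => exact ih2 (fun X hX => hn _ (.lamM _ hX)) _ h
  | pi A B ih1 ih2 =>
    intro hn Q h
    cases h with
    | appL _ h =>
      cases h with
      | appL _ h => cases h
      | appR _ h => exact ih1 (fun X hX => hn _ (.piA _ hX)) _ h
    | appR _ h =>
      cases h with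
      | lam h => exact ih2 (fun X hX => hn _ (.piB _ hX)) _ h

end Tm
end Vale.Agent.P340
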