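import Vale.Agent.P340.Defs

namespace Vale.Agent.P340

/-- Internal expressions: `Term` with constants indexed by closed types. -/
inductive Tm (S : Type) : Type
  | var (n : ℕ)
  | con (c : Term S)
  | sort (s : S)
  | app (M N : Tm S)
  | lam (A M : Tm S)
  | pi (A B : Tm S)

namespace Tm
variable {S : Type}

abbrev lr := Term.liftRen

def ren (f : ℕ → ℕ) : Tm S → Tm S
  | var n => var (f n)
  | con c => con c
  | sort s => sort s
  | app M N => app (M.ren f) (N.ren f)
  | lam A M => lam (A.ren f) (M.ren (lr f))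
  | pi A B => pi (A.ren f) (B.ren (lr f))

def up (σ : ℕ → Tm S) : ℕ → Tm S
  | 0 => var 0
  | n + 1 => (σ n).ren Nat.succ

def sub (σ : ℕ → Tm S) : Tm S → Tm S
  | var n => σ n
  | con c => con c
  | sort s => sort s
  | app M N => app (M.sub σ) (N.sub σ)
  | lam A M => lam (A.sub σ) (M.sub (up σ))
  | pi A B => pi (A.sub σ) (B.sub (up σ))

def scons {α : Type} (a : α) (σ : ℕ → α) : ℕ → α
  | 0 => a
  | n + 1 => σ n

def inst (M N : Tm S) : Tm S := M.sub (scons N var)

abbrev shift (M : Tm S) : Tm S := M.ren Nat.succ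

theorem lr_comp (f g : ℕ → ℕ) : (lr g ∘ lr f) = lr (g ∘ f) := by
  funext n; cases n <;> rfl

theorem ren_ren (M : Tm S) : ∀ f g, (M.ren f).ren g = M.ren (g ∘ f) := by
  induction M with
  | var n => intros; rfl
  | con c => intros; rfl
  | sort s => intros; rfl
  | app M N ih1 ih2 => intros; simp [ren, ih1, ih2]
  | lam A M ih1 ih2 => intros; simp [ren, ih1, ih2, lr_comp]
  | pi A M ih1 ih2 => intros; simp [ren, ih1, ih2, lr_comp]

theorem up_lr (σ : ℕ → Tm S) (f : ℕ → ℕ) : (up σ ∘ lr f) = up (σ ∘ f) := by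
  funext n; cases n <;> rfl

theorem ren_sub (M : Tm S) : ∀ f σ, (M.ren f).sub σ = M.sub (σ ∘ f) := by
  induction M with
  | var n => intros; rfl
  | con c => intros; rfl
  | sort s => intros; rfl
  | app M N ih1 ih2 => intros; simp [ren, sub, ih1, ih2]
  | lam A M ih1 ih2 => intros; simp [ren, sub, ih1, ih2, up_lr]
  | pi A M ih1 ih2 => intros; simp [ren, sub, ih1, ih2, up_lr]

theorem lr_up (σ : ℕ → Tm S) (f : ℕ → ℕ) :
    (fun n => (up σ n).ren (lr f)) = up (fun n => (σ n).ren f) := by
  funext n; cases n <;> simp [up, ren, lr, Term.liftRen, ren_ren] <;> rfl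

theorem sub_ren (M : Tm S) : ∀ σ f, (M.sub σ).ren f = M.sub (fun n => (σ n).ren f) := by
  induction M with
  | var n => intros; rfl
  | con c => intros; rfl
  | sort s => intros; rfl
  | app M N ih1 ih2 => intros; simp [ren, sub, ih1, ih2]
  | lam A M ih1 ih2 => intros; simp [ren, sub, ih1, ih2, lr_up]
  | pi A M ih1 ih2 => intros; simp [ren, sub, ih1, ih2, lr_up]

theorem up_up (σ τ : ℕ → Tm S) :
    (fun n => (up σ n).sub (up τ)) = up (fun n => (σ n).sub τ) := by
  funext n
  cases n with
  | zero => rfl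
  | succ n => simp [up, ren_sub, sub_ren]; rfl

theorem sub_sub (M : Tm S) : ∀ σ τ, (M.sub σ).sub τ = M.sub (fun n => (σ n).sub τ) := by
  induction M with
  | var n => intros; rfl
  | con c => intros; rfl
  | sort s => intros; rfl
  | app M N ih1 ih2 => intros; simp [sub, ih1, ih2]
  | lam A M ih1 ih2 => intros; simp [sub, ih1, ih2, up_up]
  | pi A M ih1 ih2 => intros; simp [sub, ih1, ih2, up_up]

theorem up_var : up (var : ℕ → Tm S) = var := by funext n; cases n <;> rfl

theorem sub_var (M : Tm S) : M.sub var = M := by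
  induction M <;> simp_all [sub, up_var]

theorem up_ren (f : ℕ → ℕ) : up (fun n => (var (f n) : Tm S)) = fun n => var (lr f n) := by
  funext n; cases n <;> rfl

theorem ren_eq_sub (M : Tm S) : ∀ f, M.ren f = M.sub (fun n => var (f n)) := by
  induction M with
  | var n => intros; rfl
  | con c => intros; rfl
  | sort s => intros; rfl
  | app M N ih1 ih2 => intros; simp [ren, sub, ih1, ih2]
  | lam A M ih1 ih2 => intros; simp [ren, sub, ih1, ih2, up_ren]
  | pi A M ih1 ih2 => intros; simp [ren, sub, ih1, ih2, up_ren]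

theorem inst_ren (M N : Tm S) (f : ℕ → ℕ) :
    (M.inst N).ren f = (M.ren (lr f)).inst (N.ren f) := by
  simp only [inst, sub_ren, ren_sub]
  congr 1; funext n; cases n <;> rfl

theorem shift_sub (M : Tm S) (σ : ℕ → Tm S) : M.shift.sub (up σ) = (M.sub σ).shift := by
  simp only [ren_sub, sub_ren]; rfl

theorem shift_scons (M N : Tm S) (σ : ℕ → Tm S) : M.shift.sub (scons N σ) = M.sub σ := by
  simp only [ren_sub]; rfl

theorem inst_sub (M N : Tm S) (σ : ℕ → Tm S) :
    (M.inst N).sub σ = (M.sub (up σ)).inst (N.sub σ) := by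
  simp only [inst, sub_sub]
  congr 1; funext n
  cases n with
  | zero => rfl
  | succ n => simp only [up, shift_scons, sub_var]; rfl

inductive Step : Tm S → Tm S → Prop
  | redex (A M N : Tm S) : Step (app (lam A M) N) (M.inst N)
  | appL {M M'} (N : Tm S) : Step M M' → Step (app M N) (app M' N)
  | appR (M : Tm S) {N N'} : Step N N' → Step (app M N) (app M N')
  | lamA {A A'} (M : Tm S) : Step A A' → Step (lam A M) (lam A' M)
  | lamM (A : Tm S) {M M'} : Step M M' → Step (lam A M) (lam A M')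
  | piA {A A'} (B : Tm S) : Step A A' → Step (pi A B) (pi A' B)
  | piB (A : Tm S) {B B'} : Step B B' → Step (pi A B) (pi A B')

def Eqv : Tm S → Tm S → Prop := Relation.EqvGen Step

theorem Eqv.refl (M : Tm S) : Eqv M M := Relation.EqvGen.refl M
theorem Eqv.symm {M N : Tm S} (h : Eqv M N) : Eqv N M := Relation.EqvGen.symm _ _ h
theorem Eqv.trans {M N P : Tm S} (h : Eqv M N) (h' : Eqv N P) : Eqv M P :=
  Relation.EqvGen.trans _ _ _ h h'
theorem Eqv.step {M N : Tm S} (h : Step M N) : Eqv M N := Relation.EqvGen.rel _ _ h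

theorem Eqv.map {F : Tm S → Tm S} (hF : ∀ {a b}, Step a b → Eqv (F a) (F b)) {M N : Tm S}
    (h : Eqv M N) : Eqv (F M) (F N) := by
  induction h with
  | rel _ _ h => exact hF h
  | refl _ => exact Eqv.refl _
  | symm _ _ _ ih => exact ih.symm
  | trans _ _ _ _ _ ih1 ih2 => exact ih1.trans ih2

theorem Eqv.app {M M' N N' : Tm S} (h : Eqv M M') (h' : Eqv N N') :
    Eqv (Tm.app M N) (Tm.app M' N') :=
  (Eqv.map (F := fun x => Tm.app x N) (fun h => .step (Step.appL _ h)) h).trans
    (Eqv.map (F := fun x => Tm.app M' x) (fun h => .step (Step.appR _ h)) h')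

theorem Eqv.lam {M M' N N' : Tm S} (h : Eqv M M') (h' : Eqv N N') :
    Eqv (Tm.lam M N) (Tm.lam M' N') :=
  (Eqv.map (F := fun x => Tm.lam x N) (fun h => .step (Step.lamA _ h)) h).trans
    (Eqv.map (F := fun x => Tm.lam M' x) (fun h => .step (Step.lamM _ h)) h')

theorem Eqv.pi {M M' N N' : Tm S} (h : Eqv M M') (h' : Eqv N N') :
    Eqv (Tm.pi M N) (Tm.pi M' N') :=
  (Eqv.map (F := fun x => Tm.pi x N) (fun h => .step (Step.piA _ h)) h).trans
    (Eqv.map (F := fun x => Tm.pi M' x) (fun h => .step (Step.piB _ h)) h')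

theorem Eqv.beta (A M N : Tm S) : Eqv (Tm.app (Tm.lam A M) N) (M.inst N) :=
  .step (.redex A M N)

theorem Step.sub {M N : Tm S} (h : Step M N) : ∀ σ, Step (M.sub σ) (N.sub σ) := by
  induction h with
  | redex A M N => intro σ; rw [inst_sub]; exact .redex _ _ _
  | appL N _ ih => intro σ; exact .appL _ (ih σ)
  | appR M _ ih => intro σ; exact .appR _ (ih σ)
  | lamA M _ ih => intro σ; exact .lamA _ (ih σ)
  | lamM A _ ih => intro σ; exact .lamM _ (ih _)
  | piA B _ ih => intro σ; exact .piA _ (ih σ)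
  | piB A _ ih => intro σ; exact .piB _ (ih _)

theorem Eqv.sub {M N : Tm S} (h : Eqv M N) (σ : ℕ → Tm S) : Eqv (M.sub σ) (N.sub σ) :=
  Eqv.map (F := fun x => x.sub σ) (fun h => .step (h.sub σ)) h

theorem Eqv.ren {M N : Tm S} (h : Eqv M N) (f : ℕ → ℕ) : Eqv (M.ren f) (N.ren f) := by
  simpa [ren_eq_sub] using h.sub _

end Tm

/-- Inclusion of expressions. -/
def toTm {S : Type} : Term S → Tm S
  | .var n => .var n
  | .sort s => .sort s
  | .app M N => .app (toTm M) (toTm N)
  | .lam A M => .lam (toTm A) (toTm M)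
  | .pi A M => .pi (toTm A) (toTm M)

/-- Expressions without constants as terms of the source syntax. -/
def toTerm {S : Type} : Tm S → Term S
  | .var n => .var n
  | .con _ => .var 0
  | .sort s => .sort s
  | .app M N => .app (toTerm M) (toTerm N)
  | .lam A M => .lam (toTerm A) (toTerm M)
  | .pi A M => .pi (toTerm A) (toTerm M)

end Vale.Agent.P340
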