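import Vale.Agent.P340.Judg

namespace Vale.Agent.P340
namespace Tm

variable {S : Type}

/-- Blockwise renaming. -/
def bl (f : ℕ → ℕ) (i : ℕ) : ℕ := 2 * f (i / 2) + i % 2

def pi2 (I b : Tm S) : Tm S := pi I (pi I.shift b)
def lam2 (I b : Tm S) : Tm S := lam I (lam I.shift b)
def app2 (M a b : Tm S) : Tm S := app (app M a) b

abbrev lr2 (f : ℕ → ℕ) : ℕ → ℕ := lr (lr f)
abbrev up2 (σ : ℕ → Tm S) : ℕ → Tm S := up (up σ)

/-- The computation type over a value type and an answer type. -/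
def cmp (V R : Tm S) : Tm S := pi (pi V R.shift) R.shift

/-- Translation components: `1` plain (also the answer type), `0` value. -/
def tr : ℕ → Tm S → Tm S
  | k, var n => var (2 * n + k)
  | _, con c => con c
  | _, sort s => sort s
  | k, app M N => app2 (tr k M) (tr 1 N) (tr 0 N)
  | k, lam A b => lam2 (tr 1 A) (tr k b)
  | k, pi A B =>
    if k = 0 then
      pi2 (tr 1 A) (pi (cmp ((tr 0 A).ren (· + 2)) ((tr 1 A).ren (· + 2)))
        (cmp (tr 0 B).shift (tr 1 B).shift))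
    else pi2 (tr 1 A) (tr k B)

theorem lr2_bl (f : ℕ → ℕ) : lr2 (bl f) = bl (lr f) := by
  funext i
  rcases i with _ | _ | i
  · rfl
  · rfl
  · simp only [lr2, lr, Term.liftRen, bl]
    rw [show (i + 1 + 1) / 2 = i / 2 + 1 by omega]
    simp only [Term.liftRen]; omega

theorem pi2_ren (I b : Tm S) (f : ℕ → ℕ) :
    (pi2 I b).ren f = pi2 (I.ren f) (b.ren (lr2 f)) := by
  simp only [pi2, ren, Tm.shift, ren_ren]; rfl

theorem lam2_ren (I b : Tm S) (f : ℕ → ℕ) :
    (lam2 I b).ren f = lam2 (I.ren f) (b.ren (lr2 f)) := by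
  simp only [lam2, ren, Tm.shift, ren_ren]; rfl

theorem cmp_ren (V R : Tm S) (f : ℕ → ℕ) : (cmp V R).ren f = cmp (V.ren f) (R.ren f) := by
  simp only [cmp, ren, Tm.shift, ren_ren]; rfl

theorem pi2_sub (I b : Tm S) (σ : ℕ → Tm S) :
    (pi2 I b).sub σ = pi2 (I.sub σ) (b.sub (up2 σ)) := by
  simp only [pi2, sub, shift_sub]

theorem lam2_sub (I b : Tm S) (σ : ℕ → Tm S) :
    (lam2 I b).sub σ = lam2 (I.sub σ) (b.sub (up2 σ)) := by
  simp only [lam2, sub, shift_sub]

theorem cmp_sub (V R : Tm S) (σ : ℕ → Tm S) : (cmp V R).sub σ = cmp (V.sub σ) (R.sub σ) := by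
  simp only [cmp, sub, shift_sub]

theorem tr_ren : ∀ (M : Tm S) (k : ℕ), k < 2 → ∀ f, tr k (M.ren f) = (tr k M).ren (bl f) := by
  intro M
  induction M with
  | var n =>
    intro k hk f
    simp only [ren, tr, bl]
    rw [show (2 * n + k) / 2 = n by omega]; congr 1; omega
  | con c => intros; rfl
  | sort s => intros; rfl
  | app M N ih1 ih2 =>
    intro k hk f
    simp only [ren, tr, app2, ih1 k hk, ih2 1 (by omega), ih2 0 (by omega)]
  | lam A b ih1 ih2 =>
    intro k hk f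
    simp only [ren, tr, lam2_ren, lr2_bl, ih1 1 (by omega), ih2 k hk]
  | pi A B ih1 ih2 =>
    intro k hk f
    simp only [ren, tr]
    split_ifs
    · simp only [ih1 1 (by omega), ih1 0 (by omega), ih2 1 (by omega), ih2 0 (by omega),
        pi2_ren, ren, cmp_ren, Tm.shift, ren_ren, ← lr2_bl]
      rfl
    · simp only [pi2_ren, lr2_bl, ih1 1 (by omega), ih2 k hk]

/-- Blockwise substitution. -/
def bsub (σ : ℕ → Tm S) (i : ℕ) : Tm S := tr (i % 2) (σ (i / 2))

theorem bl_succ : bl Nat.succ = fun i => i + 2 := by funext i; simp only [bl]; omega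

theorem up2_bsub (σ : ℕ → Tm S) : up2 (bsub σ) = bsub (up σ) := by
  funext i
  rcases i with _ | _ | i
  · rfl
  · rfl
  · simp only [up2, up, ren_ren, bsub]
    rw [show (i + 1 + 1) % 2 = i % 2 by omega, show (i + 1 + 1) / 2 = i / 2 + 1 by omega]
    simp only [up]
    rw [tr_ren _ _ (Nat.mod_lt _ (by omega)), bl_succ]; rfl

theorem shift2_sub (M : Tm S) (σ : ℕ → Tm S) :
    (M.ren (· + 2)).sub (up2 σ) = (M.sub σ).ren (· + 2) := by
  simp only [ren_sub, sub_ren]
  congr 1; funext i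
  simp only [Function.comp_apply, up2, up, ren_ren]; rfl

theorem tr_sub : ∀ (M : Tm S) (k : ℕ), k < 2 → ∀ σ, tr k (M.sub σ) = (tr k M).sub (bsub σ) := by
  intro M
  induction M with
  | var n =>
    intro k hk σ
    simp only [sub, tr, bsub]
    rw [show (2 * n + k) % 2 = k by omega, show (2 * n + k) / 2 = n by omega]
  | con c => intros; rfl
  | sort s => intros; rfl
  | app M N ih1 ih2 =>
    intro k hk σ
    simp only [sub, tr, app2, ih1 k hk, ih2 1 (by omega), ih2 0 (by omega)]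
  | lam A b ih1 ih2 =>
    intro k hk σ
    simp only [sub, tr, lam2_sub, up2_bsub, ih1 1 (by omega), ih2 k hk]
  | pi A B ih1 ih2 =>
    intro k hk σ
    simp only [sub, tr]
    split_ifs
    · simp only [ih1 1 (by omega), ih1 0 (by omega), ih2 1 (by omega), ih2 0 (by omega),
        pi2_sub, sub, cmp_sub, shift_sub, ← up2_bsub, shift2_sub]
    · simp only [pi2_sub, up2_bsub, ih1 1 (by omega), ih2 k hk]

theorem Eqv.app2 {M M' a a' b b' : Tm S} (h : Eqv M M') (h1 : Eqv a a') (h2 : Eqv b b') :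
    Eqv (Tm.app2 M a b) (Tm.app2 M' a' b') :=
  Eqv.app (Eqv.app h h1) h2

theorem Eqv.lam2 {I I' b b' : Tm S} (h1 : Eqv I I') (h2 : Eqv b b') :
    Eqv (Tm.lam2 I b) (Tm.lam2 I' b') :=
  Eqv.lam h1 (Eqv.lam (h1.ren _) h2)

theorem Eqv.pi2 {I I' b b' : Tm S} (h1 : Eqv I I') (h2 : Eqv b b') :
    Eqv (Tm.pi2 I b) (Tm.pi2 I' b') :=
  Eqv.pi h1 (Eqv.pi (h1.ren _) h2)

theorem Eqv.cmp {V V' R R' : Tm S} (h : Eqv V V') (h' : Eqv R R') :
    Eqv (Tm.cmp V R) (Tm.cmp V' R') :=
  Eqv.pi (Eqv.pi h (h'.ren _)) (h'.ren _)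

/-- Substitution of the two newest variables. -/
def sc2 (a b : Tm S) : ℕ → Tm S := scons b (scons a var)

theorem beta2 (I body a b : Tm S) :
    Eqv (app2 (lam2 I body) a b) (body.sub (sc2 a b)) := by
  refine (Eqv.app (Eqv.beta _ _ _) (Eqv.refl _)).trans ?_
  simp only [inst, sub]
  refine (Eqv.beta _ _ _).trans ?_
  simp only [inst, sub_sub]
  have : ∀ {σ τ : ℕ → Tm S}, σ = τ → Eqv (body.sub σ) (body.sub τ) := by
    rintro σ τ rfl; exact Eqv.refl _
  refine this ?_
  funext i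
  rcases i with _ | _ | i <;>
    simp [up, sub, scons, sc2, ren_sub, sub_var, Function.comp_def, ren]

theorem bsub_scons (N : Tm S) : bsub (scons N var) = sc2 (tr 1 N) (tr 0 N) := by
  funext i
  rcases i with _ | _ | i
  · rfl
  · rfl
  · simp only [bsub, sc2, scons]
    rw [show (i + 1 + 1) % 2 = i % 2 by omega, show (i + 1 + 1) / 2 = i / 2 + 1 by omega]
    simp only [scons, tr]
    congr 1; omega

theorem tr_step {M M' : Tm S} (h : Step M M') :
    ∀ k, k < 2 → Eqv (tr k M) (tr k M') := by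
  induction h with
  | redex A b N =>
    intro k hk
    rw [inst, tr_sub b k hk, bsub_scons]
    exact beta2 _ _ _ _
  | appL N _ ih => intro k hk; exact Eqv.app2 (ih k hk) (.refl _) (.refl _)
  | appR M _ ih =>
    intro k hk; exact Eqv.app2 (.refl _) (ih 1 (by omega)) (ih 0 (by omega))
  | lamA M _ ih => intro k hk; exact Eqv.lam2 (ih 1 (by omega)) (.refl _)
  | lamM A _ ih => intro k hk; exact Eqv.lam2 (.refl _) (ih k hk)
  | piA B _ ih =>
    intro k hk
    simp only [tr]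
    split_ifs
    · exact Eqv.pi2 (ih 1 (by omega)) (Eqv.pi (Eqv.cmp ((ih 0 (by omega)).ren _)
        ((ih 1 (by omega)).ren _)) (.refl _))
    · exact Eqv.pi2 (ih 1 (by omega)) (.refl _)
  | piB A _ ih =>
    intro k hk
    simp only [tr]
    split_ifs
    · exact Eqv.pi2 (.refl _) (Eqv.pi (.refl _) (Eqv.cmp ((ih 0 (by omega)).ren _)
        ((ih 1 (by omega)).ren _)))
    · exact Eqv.pi2 (.refl _) (ih k hk)

theorem tr_eqv {M M' : Tm S} (h : Eqv M M') {k : ℕ} (hk : k < 2) : Eqv (tr k M) (tr k M') := by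
  induction h with
  | rel _ _ h => exact tr_step h k hk
  | refl _ => exact Eqv.refl _
  | symm _ _ _ ih => exact ih.symm
  | trans _ _ _ _ _ ih1 ih2 => exact ih1.trans ih2

def blkC (I : Tm S) (Δ : List (Tm S)) : List (Tm S) := I.shift :: I :: Δ

/-- The translated context. -/
def trC : List (Tm S) → List (Tm S)
  | [] => []
  | A :: Γ => blkC (tr 1 A) (trC Γ)

end Tm
end Vale.Agent.P340
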