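import Vale.Agent.P340.Syntax

namespace Vale.Agent.P340

/-- Untyped lambda terms with one inert constant. -/
inductive U : Type
  | var (n : ℕ)
  | atom
  | lam (M : U)
  | app (M N : U)

namespace U

def ren (f : ℕ → ℕ) : U → U
  | var n => var (f n)
  | atom => atom
  | lam M => lam (M.ren (Term.liftRen f))
  | app M N => app (M.ren f) (N.ren f)

def up (σ : ℕ → U) : ℕ → U
  | 0 => var 0
  | n + 1 => (σ n).ren Nat.succ

def sub (σ : ℕ → U) : U → U
  | var n => σ n
  | atom => atom
  | lam M => lam (M.sub (up σ))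
  | app M N => app (M.sub σ) (N.sub σ)

open Tm (scons lr lr_comp)

def inst (M N : U) : U := M.sub (scons N var)

theorem ren_ren (M : U) : ∀ f g, (M.ren f).ren g = M.ren (g ∘ f) := by
  induction M with
  | var n => intros; rfl
  | atom => intros; rfl
  | lam M ih => intros; simp [ren, ih, lr_comp]
  | app M N ih1 ih2 => intros; simp [ren, ih1, ih2]

theorem up_lr (σ : ℕ → U) (f : ℕ → ℕ) : (up σ ∘ lr f) = up (σ ∘ f) := by
  funext n; cases n <;> rfl

theorem ren_sub (M : U) : ∀ f σ, (M.ren f).sub σ = M.sub (σ ∘ f) := by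
  induction M with
  | var n => intros; rfl
  | atom => intros; rfl
  | lam M ih => intros; simp [ren, sub, ih, up_lr]
  | app M N ih1 ih2 => intros; simp [ren, sub, ih1, ih2]

theorem lr_up (σ : ℕ → U) (f : ℕ → ℕ) :
    (fun n => (up σ n).ren (lr f)) = up (fun n => (σ n).ren f) := by
  funext n
  cases n with
  | zero => rfl
  | succ n => simp only [up, ren_ren]; rfl

theorem sub_ren (M : U) : ∀ σ f, (M.sub σ).ren f = M.sub (fun n => (σ n).ren f) := by
  induction M with
  | var n => intros; rfl
  | atom => intros; rfl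
  | lam M ih => intros; simp [ren, sub, ih, lr_up]
  | app M N ih1 ih2 => intros; simp [ren, sub, ih1, ih2]

theorem up_up (σ τ : ℕ → U) : (fun n => (up σ n).sub (up τ)) = up (fun n => (σ n).sub τ) := by
  funext n
  cases n with
  | zero => rfl
  | succ n => simp only [up, ren_sub, sub_ren]; rfl

theorem sub_sub (M : U) : ∀ σ τ, (M.sub σ).sub τ = M.sub (fun n => (σ n).sub τ) := by
  induction M with
  | var n => intros; rfl
  | atom => intros; rfl
  | lam M ih => intros; simp [sub, ih, up_up]
  | app M N ih1 ih2 => intros; simp [sub, ih1, ih2]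

theorem up_var : up var = var := by funext n; cases n <;> rfl

theorem sub_var (M : U) : M.sub var = M := by induction M <;> simp_all [sub, up_var]

theorem inst_sub (M N : U) (σ : ℕ → U) :
    (M.inst N).sub σ = (M.sub (up σ)).inst (N.sub σ) := by
  simp only [inst, sub_sub]
  congr 1; funext n
  cases n with
  | zero => rfl
  | succ n =>
    simp only [scons, up, ren_sub]
    exact (sub_var (σ n)).symm

theorem inst_ren (M N : U) (f : ℕ → ℕ) :
    (M.inst N).ren f = (M.ren (lr f)).inst (N.ren f) := by
  simp only [inst, sub_ren, ren_sub]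
  congr 1; funext n; cases n <;> rfl

inductive Step : U → U → Prop
  | redex (M N : U) : Step (app (lam M) N) (M.inst N)
  | appL {M M'} (N : U) : Step M M' → Step (app M N) (app M' N)
  | appR (M : U) {N N'} : Step N N' → Step (app M N) (app M N')
  | lam {M M'} : Step M M' → Step (lam M) (lam M')

/-- Weak head reduction. -/
inductive Wh : U → U → Prop
  | redex (M N : U) : Wh (app (U.lam M) N) (M.inst N)
  | appL {M M'} (N : U) : Wh M M' → Wh (app M N) (app M' N)

theorem Wh.sub {M N : U} (h : Wh M N) (σ : ℕ → U) : Wh (M.sub σ) (N.sub σ) := by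
  induction h with
  | redex M N => rw [inst_sub]; exact .redex _ _
  | appL N _ ih => exact .appL _ ih

theorem Wh.ren {M N : U} (h : Wh M N) (f : ℕ → ℕ) : Wh (M.ren f) (N.ren f) := by
  induction h with
  | redex M N => rw [inst_ren]; exact .redex _ _
  | appL N _ ih => exact .appL _ ih

abbrev Whs := Relation.ReflTransGen Wh

theorem Whs.appL {M M' : U} (h : Whs M M') (N : U) : Whs (app M N) (app M' N) :=
  h.lift (fun x => app x N) fun _ _ h => Wh.appL N h

/-- Standard reduction (Kashima). -/
inductive Std : U → U → Prop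
  | var {M} (n) : Whs M (U.var n) → Std M (U.var n)
  | atom {M} : Whs M U.atom → Std M U.atom
  | lam {M P P'} : Whs M (U.lam P) → Std P P' → Std M (U.lam P')
  | app {M P Q P' Q'} : Whs M (U.app P Q) → Std P P' → Std Q Q' → Std M (U.app P' Q')

theorem Std.refl : ∀ M : U, Std M M
  | .var n => .var n .refl
  | .atom => .atom .refl
  | .lam M => .lam .refl (Std.refl M)
  | .app M N => .app .refl (Std.refl M) (Std.refl N)

theorem Std.whs {M M' N : U} (h : Whs M M') (h' : Std M' N) : Std M N := by
  cases h' with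
  | var n h2 => exact .var n (h.trans h2)
  | atom h2 => exact .atom (h.trans h2)
  | lam h2 h3 => exact .lam (h.trans h2) h3
  | app h2 h3 h4 => exact .app (h.trans h2) h3 h4

theorem Std.ren {M N : U} (h : Std M N) : ∀ f, Std (M.ren f) (N.ren f) := by
  induction h with
  | var n h => intro f; exact .var _ (h.lift (U.ren f) fun _ _ h => h.ren f)
  | atom h => intro f; exact .atom (h.lift (U.ren f) fun _ _ h => h.ren f)
  | lam h _ ih => intro f; exact .lam (h.lift (U.ren f) fun _ _ h => h.ren f) (ih _)
  | app h _ _ ih1 ih2 =>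
    intro f; exact .app (h.lift (U.ren f) fun _ _ h => h.ren f) (ih1 f) (ih2 f)

theorem Std.sub {M N : U} (h : Std M N) :
    ∀ σ τ, (∀ n, Std (σ n) (τ n)) → Std (M.sub σ) (N.sub τ) := by
  induction h with
  | var n h =>
    intro σ τ hs
    exact Std.whs (h.lift (U.sub σ) fun _ _ h => h.sub σ) (hs n)
  | atom h => intro σ τ _; exact .atom (h.lift (U.sub σ) fun _ _ h => h.sub σ)
  | lam h _ ih =>
    intro σ τ hs
    refine .lam (h.lift (U.sub σ) fun _ _ h => h.sub σ) (ih _ _ fun n => ?_)
    cases n with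
    | zero => exact .var 0 .refl
    | succ n => exact (hs n).ren _
  | app h _ _ ih1 ih2 =>
    intro σ τ hs
    exact .app (h.lift (U.sub σ) fun _ _ h => h.sub σ) (ih1 _ _ hs) (ih2 _ _ hs)

theorem Std.step {N P : U} (hs : Step N P) : ∀ {M}, Std M N → Std M P := by
  induction hs with
  | redex B C =>
    intro M h
    cases h with
    | app h h1 h2 =>
      cases h1 with
      | lam h1 h3 =>
        refine Std.whs ((h.trans (Whs.appL h1 _)).tail (.redex _ _)) (h3.sub _ _ fun n => ?_)
        cases n with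
        | zero => exact h2
        | succ n => exact .var n .refl
  | appL N _ ih => intro M h; cases h with | app h h1 h2 => exact .app h (ih h1) h2
  | appR M _ ih => intro M' h; cases h with | app h h1 h2 => exact .app h h1 (ih h2)
  | lam _ ih => intro M' h; cases h with | lam h h1 => exact .lam h (ih h1)

theorem Std.of_red {M N : U} (h : Relation.ReflTransGen Step M N) : Std M N := by
  induction h with
  | refl => exact Std.refl M
  | tail _ hs ih => exact Std.step hs ih

/-- Spines headed by a variable or the constant. -/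
inductive Ne : U → Prop
  | var (n) : Ne (U.var n)
  | atom : Ne U.atom
  | app {M} (N : U) : Ne M → Ne (U.app M N)

theorem Ne.not_lam {M : U} : ¬ Ne (U.lam M) := by intro h; cases h

theorem Ne.no_wh {M N : U} (h : Ne M) : ¬ Wh M N := by
  induction h generalizing N with
  | var n => intro h; cases h
  | atom => intro h; cases h
  | app N' hM ih =>
    intro h
    cases h with
    | redex _ _ => exact Ne.not_lam hM
    | appL _ h => exact ih h

theorem Ne.ren {M : U} (h : Ne M) (f : ℕ → ℕ) : Ne (M.ren f) := by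
  induction h with
  | var n => exact .var _
  | atom => exact .atom
  | app N _ ih => exact .app _ ih

theorem Wh.det {M N N' : U} (h : Wh M N) : Wh M N' → N = N' := by
  induction h generalizing N' with
  | redex A B =>
    intro h
    cases h with
    | redex _ _ => rfl
    | appL _ h => cases h
  | appL B h ih =>
    intro h'
    cases h' with
    | redex _ _ => cases h
    | appL _ h' => rw [ih h']

/-- `Nm n M`: leftmost reduction of `M` terminates, with a size bound `n`. -/
inductive Nm : ℕ → U → Prop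
  | var {n} (i) : Nm n (U.var i)
  | atom {n} : Nm n U.atom
  | lam {n M} : Nm n M → Nm (n + 1) (U.lam M)
  | app {n M N} : Ne M → Nm n M → Nm n N → Nm (n + 1) (U.app M N)
  | wh {n M M'} : Wh M M' → Nm n M' → Nm (n + 1) M

theorem Nm.mono {n : ℕ} {M : U} (h : Nm n M) : ∀ {m}, n ≤ m → Nm m M := by
  induction h with
  | var i => intros; exact .var i
  | atom => intros; exact .atom
  | @lam n M _ ih =>
    intro m hm; obtain ⟨k, rfl⟩ : ∃ k, m = k + 1 := ⟨m - 1, by omega⟩
    exact .lam (ih (by omega))
  | @app n M N hne _ _ ih1 ih2 =>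
    intro m hm; obtain ⟨k, rfl⟩ : ∃ k, m = k + 1 := ⟨m - 1, by omega⟩
    exact .app hne (ih1 (by omega)) (ih2 (by omega))
  | @wh n M M' hw _ ih =>
    intro m hm; obtain ⟨k, rfl⟩ : ∃ k, m = k + 1 := ⟨m - 1, by omega⟩
    exact .wh hw (ih (by omega))

theorem Nm.whs {M M' : U} (h : Whs M M') (h' : ∃ n, Nm n M') : ∃ n, Nm n M := by
  induction h using Relation.ReflTransGen.head_induction_on with
  | refl => exact h'
  | head hw _ ih => obtain ⟨n, hn⟩ := ih; exact ⟨n + 1, .wh hw hn⟩

theorem Nm.fwd {x y : U} (h : Whs x y) : ∀ k, Nm k x → Nm k y := by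
  induction h using Relation.ReflTransGen.head_induction_on with
  | refl => intro k hk; exact hk
  | head hw _ ih =>
    intro k hk
    cases hk with
    | var i => cases hw
    | atom => cases hw
    | lam _ => cases hw
    | app hne' _ _ => exact absurd hw (Ne.no_wh (.app _ hne'))
    | wh hw' hk' => rw [Wh.det hw' hw] at hk'; exact (ih _ hk').mono (by omega)

theorem Std.nm {M N : U} (h : Std M N) (hN : ∀ P, ¬ Step N P) :
    (∃ n, Nm n M) ∧ ((∀ P, N ≠ U.lam P) → ∃ M', Whs M M' ∧ Ne M') := by
  induction h with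
  | var n h => exact ⟨Nm.whs h ⟨0, .var n⟩, fun _ => ⟨_, h, .var n⟩⟩
  | atom h => exact ⟨Nm.whs h ⟨0, .atom⟩, fun _ => ⟨_, h, .atom⟩⟩
  | @lam M P P' h _ ih =>
    obtain ⟨n, hn⟩ := (ih fun Q hQ => hN _ (.lam hQ)).1
    exact ⟨Nm.whs h ⟨n + 1, .lam hn⟩, fun h' => absurd rfl (h' P')⟩
  | @app M P Q P' Q' h _ _ ih1 ih2 =>
    obtain ⟨⟨n1, hn1⟩, hne⟩ := ih1 fun R hR => hN _ (.appL _ hR)
    obtain ⟨n2, hn2⟩ := (ih2 fun R hR => hN _ (.appR _ hR)).1
    have hnl : ∀ R, P' ≠ U.lam R := by rintro R rfl; exact hN _ (.redex _ _)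
    obtain ⟨P0, hP0, hP0ne⟩ := hne hnl
    have happ : Nm (max n1 n2 + 1) (U.app P0 Q) :=
      .app hP0ne ((Nm.fwd hP0 n1 hn1).mono (le_max_left _ _)) (hn2.mono (le_max_right _ _))
    exact ⟨Nm.whs (h.trans (Whs.appL hP0 _)) ⟨_, happ⟩,
      fun _ => ⟨_, h.trans (Whs.appL hP0 _), .app _ hP0ne⟩⟩

theorem nm_of_normalizing {M N : U} (h : Relation.ReflTransGen Step M N)
    (hN : ∀ P, ¬ Step N P) : ∃ n, Nm n M :=
  ((Std.of_red h).nm hN).1

end U
end Vale.Agent.P340
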